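import Vale.Agent.P112.Mode.Pois

/-!
P112: conjugate Poisson integrals with a variable width, bounded on `L²` by `T T*`.
-/

open MeasureTheory Filter Set
open scoped Topology ENNReal ComplexConjugate

noncomputable section

namespace Vale.Agent.P112.Mode

@[fun_prop]
lemma measurable_qk : Measurable fun p : ℝ × ℝ => qk p.1 p.2 := by unfold qk; fun_prop

lemma continuous_qk {L : ℝ} (hL : 0 < L) : Continuous (qk L) := by
  refine Continuous.div (by fun_prop) (by fun_prop) fun s => ?_
  positivity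

lemma qk_mul_add {a b : ℝ} (ha : 0 < a) (hb : 0 < b) (x c : ℝ) :
    qk a x * qk b (x - c) + pk a x * pk b (x - c) =
      -c / ((a + b) ^ 2 + c ^ 2) * (qk a x - qk b (x - c)) +
      (a + b) / ((a + b) ^ 2 + c ^ 2) * (pk a x + pk b (x - c)) := by
  have h1 : a ^ 2 + x ^ 2 ≠ 0 := by positivity
  have h2 : b ^ 2 + (x - c) ^ 2 ≠ 0 := by positivity
  have h3 : (a + b) ^ 2 + c ^ 2 ≠ 0 := by positivity
  simp only [qk, pk]
  field_simp
  ring

lemma integrable_qk_mul {a b : ℝ} (ha : 0 < a) (hb : 0 < b) (c : ℝ) :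
    Integrable fun x => qk a x * qk b (x - c) := by
  refine (((integrable_pk ha).div_const a).add (((integrable_pk hb).comp_sub_right c).div_const b)).mono'
    ((continuous_qk ha).mul ((continuous_qk hb).comp (continuous_id.sub continuous_const))).aestronglyMeasurable
    (ae_of_all _ fun x => ?_)
  rw [Real.norm_eq_abs, abs_mul, Pi.add_apply]
  nlinarith [qk_sq_le ha x, qk_sq_le hb (x - c), sq_nonneg (|qk a x| - |qk b (x - c)|),
    sq_abs (qk a x), sq_abs (qk b (x - c)), abs_nonneg (qk a x), abs_nonneg (qk b (x - c))]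

lemma integrable_pk_mul {a b : ℝ} (ha : 0 < a) (hb : 0 < b) (c : ℝ) :
    Integrable fun x => pk a x * pk b (x - c) := by
  refine ((((integrable_pk hb).comp_sub_right c).const_mul (4 * pk a c)).add
    ((integrable_pk ha).const_mul (4 * pk b c))).mono'
    ((continuous_pk ha).mul ((continuous_pk hb).comp (continuous_id.sub continuous_const))).aestronglyMeasurable
    (ae_of_all _ fun x => ?_)
  rw [Real.norm_eq_abs, abs_of_nonneg (mul_nonneg (pk_nonneg ha.le _) (pk_nonneg hb.le _))]
  exact pk_mul_le ha hb x c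

lemma integral_qk_mul_le {a b : ℝ} (ha : 0 < a) (hb : 0 < b) (c : ℝ) :
    |∫ x, qk a x * qk b (x - c)| ≤ 6 * Real.pi * (pk a c + pk b c) := by
  set Δ := (a + b) ^ 2 + c ^ 2
  have hΔ : 0 < Δ := by positivity
  set A := -c / Δ
  set B := (a + b) / Δ
  have hiQ := integrable_qk_mul ha hb c
  have hiP := integrable_pk_mul ha hb c
  have hia := integrable_pk ha
  have hib := (integrable_pk hb).comp_sub_right c
  have hD : Integrable fun x => A * (qk a x - qk b (x - c)) := by
    refine ((hiQ.add hiP).sub ((hia.add hib).const_mul B)).congr (ae_of_all _ fun x => ?_)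
    simp only [Pi.sub_apply, Pi.add_apply]
    linarith [qk_mul_add ha hb x c]
  have hJ : ∫ x, A * (qk a x - qk b (x - c)) = 0 := by
    set F : ℝ → ℝ := fun x => A * (Real.log ((a ^ 2 + x ^ 2) / (b ^ 2 + (x - c) ^ 2)) / 2)
    have hF : ∀ x, HasDerivAt F (A * (qk a x - qk b (x - c))) x := by
      intro x
      have e1 : HasDerivAt (fun y => a ^ 2 + y ^ 2) (2 * x) x := by
        simpa using (hasDerivAt_pow 2 x).const_add (a ^ 2)
      have e2 : HasDerivAt (fun y => b ^ 2 + (y - c) ^ 2) (2 * (x - c)) x := by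
        simpa using (((hasDerivAt_id x).sub_const c).pow 2).const_add (b ^ 2)
      have h1 : 0 < a ^ 2 + x ^ 2 := by positivity
      have h2 : 0 < b ^ 2 + (x - c) ^ 2 := by positivity
      refine ((((e1.div e2 h2.ne').log (div_pos h1 h2).ne').div_const 2).const_mul A).congr_deriv ?_
      simp only [qk, Pi.div_apply]
      field_simp
    have hlim : ∀ l : Filter ℝ, Tendsto (fun x : ℝ => x⁻¹) l (𝓝 0) → (∀ᶠ x in l, x ≠ 0) →
        Tendsto F l (𝓝 0) := by
      intro l hl hne
      have h1 : Tendsto (fun x : ℝ => ((a * x⁻¹) ^ 2 + 1) / ((b * x⁻¹) ^ 2 + (1 - c * x⁻¹) ^ 2)) l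
          (𝓝 (((a * 0) ^ 2 + 1) / ((b * 0) ^ 2 + (1 - c * 0) ^ 2))) :=
        (((hl.const_mul a).pow 2).add_const 1).div
          (((hl.const_mul b).pow 2).add (((hl.const_mul c).const_sub 1).pow 2)) (by norm_num)
      simp only [mul_zero, sub_zero, one_pow, zero_pow two_ne_zero, zero_add, div_one] at h1
      have h2 : Tendsto (fun x => (a ^ 2 + x ^ 2) / (b ^ 2 + (x - c) ^ 2)) l (𝓝 1) := by
        refine h1.congr' (hne.mono fun x hx => ?_)
        have : b ^ 2 + (x - c) ^ 2 ≠ 0 := by positivity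
        field_simp
      have h3 := ((h2.log one_ne_zero).div_const 2).const_mul A
      simpa [F] using h3
    rw [integral_of_hasDerivAt_of_tendsto hF hD
      (hlim atBot tendsto_inv_atBot_zero (eventually_ne_atBot 0))
      (hlim atTop tendsto_inv_atTop_zero (eventually_ne_atTop 0)), sub_zero]
  have he : ∫ x, qk a x * qk b (x - c) = B * (2 * Real.pi) - ∫ x, pk a x * pk b (x - c) := by
    have h : ∀ x, qk a x * qk b (x - c) =
        A * (qk a x - qk b (x - c)) + B * (pk a x + pk b (x - c)) - pk a x * pk b (x - c) :=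
      fun x => by linarith [qk_mul_add ha hb x c]
    have i1 : Integrable fun x => B * (pk a x + pk b (x - c)) := (hia.add hib).const_mul B
    have i2 : Integrable fun x => A * (qk a x - qk b (x - c)) + B * (pk a x + pk b (x - c)) := hD.add i1
    simp_rw [h]
    rw [integral_sub i2 hiP, integral_add hD i1, hJ, integral_const_mul,
      integral_add hia hib, integral_sub_right_eq_self (pk b) c, integral_pk ha, integral_pk hb]
    ring
  have hP0 : 0 ≤ ∫ x, pk a x * pk b (x - c) :=
    integral_nonneg fun x => mul_nonneg (pk_nonneg ha.le _) (pk_nonneg hb.le _)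
  have hP1 : ∫ x, pk a x * pk b (x - c) ≤ 4 * Real.pi * (pk a c + pk b c) := by
    refine (integral_mono hiP ((hib.const_mul (4 * pk a c)).add (hia.const_mul (4 * pk b c)))
      fun x => pk_mul_le ha hb x c).trans (le_of_eq ?_)
    simp only [Pi.add_apply]
    rw [integral_add (hib.const_mul _) (hia.const_mul _), integral_const_mul, integral_const_mul,
      integral_sub_right_eq_self (pk b) c, integral_pk ha, integral_pk hb]
    ring
  have hB : B ≤ pk a c + pk b c := by
    simp only [B, Δ, pk]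
    rw [add_div]
    gcongr <;> nlinarith
  have hB0 : 0 ≤ B := by positivity
  rw [he, abs_le]
  constructor <;> nlinarith [Real.pi_pos, pk_nonneg ha.le c, pk_nonneg hb.le c]

/-- The conjugate Poisson integral of width `L` of `G` at `u`. -/
def qop (L : ℝ) (G : ℝ → ℂ) (u : ℝ) : ℂ := ∫ w, (qk L (w - u) : ℂ) * G w

lemma measurable_qop {α : Type*} [MeasurableSpace α] {L u : α → ℝ} (hL : Measurable L)
    (hu : Measurable u) {G : ℝ → ℂ} (hG : Measurable G) :
    Measurable fun a => qop (L a) G (u a) := by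
  refine (StronglyMeasurable.integral_prod_right' (ν := volume) (f := fun p : α × ℝ =>
    (qk (L p.1) (p.2 - u p.1) : ℂ) * G p.2) ?_).measurable
  exact ((Complex.measurable_ofReal.comp (measurable_qk.comp ((hL.comp measurable_fst).prodMk
    (measurable_snd.sub (hu.comp measurable_fst))))).mul (hG.comp measurable_snd)).stronglyMeasurable

lemma lintegral_qk_sq {L : ℝ} (hL : 0 < L) (u : ℝ) :
    ∫⁻ w, ENNReal.ofReal |qk L (w - u)| ^ 2 ≤ ENNReal.ofReal (Real.pi / L) := by
  calc ∫⁻ w, ENNReal.ofReal |qk L (w - u)| ^ 2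
      ≤ ∫⁻ w, ENNReal.ofReal (1 / L) * ENNReal.ofReal (pk L (w - u)) := by
        refine lintegral_mono fun w => ?_
        rw [← ENNReal.ofReal_pow (abs_nonneg _), sq_abs, ← ENNReal.ofReal_mul (by positivity)]
        exact ENNReal.ofReal_le_ofReal ((qk_sq_le hL _).trans_eq (by ring))
    _ = _ := by
        rw [lintegral_const_mul' _ _ ENNReal.ofReal_ne_top, lintegral_pk hL,
          ← ENNReal.ofReal_mul (by positivity)]
        congr 1; ring

lemma enorm_ofReal_abs (r : ℝ) : ‖(r : ℂ)‖ₑ = ENNReal.ofReal |r| := by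
  rw [← ofReal_norm, Complex.norm_real, Real.norm_eq_abs]

lemma sq_lintegral_qk_mul_le {L : ℝ} (hL : 0 < L) (u : ℝ) {G : ℝ → ℂ} (hG : Measurable G) :
    (∫⁻ w, ‖(qk L (w - u) : ℂ) * G w‖ₑ) ^ 2 ≤
      ENNReal.ofReal (Real.pi / L) * ∫⁻ w, ‖G w‖ₑ ^ 2 := by
  have e : ∀ w, ‖(qk L (w - u) : ℂ) * G w‖ₑ = ENNReal.ofReal |qk L (w - u)| * ‖G w‖ₑ := by
    intro w
    rw [enorm_mul, ← ofReal_norm, Complex.norm_real, Real.norm_eq_abs]
  simp_rw [e]
  refine (sq_lintegral_mul_le volume (ENNReal.measurable_ofReal.comp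
    (((continuous_qk hL).measurable.comp (measurable_id.sub_const u)).abs)).aemeasurable
    hG.enorm.aemeasurable).trans ?_
  gcongr
  exact lintegral_qk_sq hL u

section bound

variable {L : ℝ → ℝ}

lemma qop_sq_on (hLm : Measurable L) (hLpos : ∀ u, 0 < L u) {G : ℝ → ℂ} (hG : Measurable G)
    (hGfin : ∫⁻ w, ‖G w‖ₑ ^ 2 ≠ ∞) (n : ℕ) :
    ∫⁻ u in {u | 1 / ((n : ℝ) + 1) ≤ L u ∧ |u| ≤ n}, ‖qop (L u) G u‖ₑ ^ 2 ≤
      ENNReal.ofReal (12 * Real.pi * (16 * Real.pi)) * ∫⁻ w, ‖G w‖ₑ ^ 2 := by
  set E := {u | 1 / ((n : ℝ) + 1) ≤ L u ∧ |u| ≤ n}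
  have hE : MeasurableSet E :=
    (measurableSet_le measurable_const hLm).inter (measurableSet_le measurable_id.abs measurable_const)
  set H := ∫⁻ w, ‖G w‖ₑ ^ 2
  set g : ℝ → ℂ := E.indicator fun u => qop (L u) G u with hg
  have hgm : Measurable g := (measurable_qop hLm measurable_id hG).indicator hE
  set M := ∫⁻ u in E, ‖qop (L u) G u‖ₑ ^ 2 with hM
  have hgM : ∫⁻ u, ‖g u‖ₑ ^ 2 = M := by
    rw [hM, ← lintegral_indicator hE]
    refine lintegral_congr fun u => ?_
    simp only [hg, Set.indicator]; split_ifs <;> simp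
  -- a uniform bound for `g`, which is supported in a bounded set
  set B := ENNReal.ofReal (Real.pi * ((n : ℝ) + 1)) * H
  have hB : B ≠ ∞ := ENNReal.mul_ne_top ENNReal.ofReal_ne_top hGfin
  have hgB : ∀ u, ‖g u‖ₑ ^ 2 ≤ B := by
    intro u
    by_cases hu : u ∈ E
    · rw [hg, Set.indicator_of_mem hu]
      refine (pow_le_pow_left' (enorm_integral_le_lintegral_enorm _) 2).trans
        ((sq_lintegral_qk_mul_le (hLpos u) u hG).trans (mul_le_mul' (ENNReal.ofReal_le_ofReal ?_) le_rfl))
      rw [div_le_iff₀ (hLpos u)]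
      have h1 := hu.1
      rw [div_le_iff₀ (by positivity)] at h1
      nlinarith [Real.pi_pos]
    · simp [hg, hu]
  have hvol : volume E ≠ ∞ := by
    refine ne_top_of_le_ne_top ?_ (measure_mono (t := Icc (-(n : ℝ)) n) fun u hu => abs_le.1 hu.2)
    simp
  have hgint : Integrable g := by
    rw [hg, integrable_indicator_iff hE]
    refine Measure.integrableOn_of_bounded (M := ((B + 1).toReal)) hvol
      (measurable_qop hLm measurable_id hG).aestronglyMeasurable ?_
    refine ae_restrict_of_forall_mem hE fun u hu => ?_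
    have h2 : ‖g u‖ₑ ≤ B + 1 := by
      rcases le_total ‖g u‖ₑ 1 with h | h
      · exact h.trans le_add_self
      · exact (le_self_pow h two_ne_zero).trans ((hgB u).trans le_self_add)
    rw [hg, Set.indicator_of_mem hu] at h2
    rw [← toReal_enorm]
    exact ENNReal.toReal_mono (ENNReal.add_ne_top.2 ⟨hB, ENNReal.one_ne_top⟩) h2
  have hgE : ∀ u, u ∉ E → g u = 0 := fun u hu => by simp [hg, hu]
  set Ts : ℝ → ℂ := fun w => ∫ u, (qk (L u) (w - u) : ℂ) * conj (g u)
  have hK : Measurable fun p : ℝ × ℝ => (qk (L p.2) (p.1 - p.2) : ℂ) :=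
    Complex.measurable_ofReal.comp (measurable_qk.comp
      ((hLm.comp measurable_snd).prodMk (measurable_fst.sub measurable_snd)))
  have hcg : Measurable fun u => conj (g u) := Complex.continuous_conj.measurable.comp hgm
  have hTsm : Measurable Ts :=
    (StronglyMeasurable.integral_prod_right' (ν := volume) (f := fun p : ℝ × ℝ =>
      (qk (L p.2) (p.1 - p.2) : ℂ) * conj (g p.2))
      ((hK.mul (hcg.comp measurable_snd)).stronglyMeasurable)).measurable
  -- `M = ∫ conj g * T G`
  have hF : Integrable (fun p : ℝ × ℝ => conj (g p.1) * ((qk (L p.1) (p.2 - p.1) : ℂ) * G p.2))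
      (volume.prod volume) := by
    have hm : Measurable fun p : ℝ × ℝ =>
        conj (g p.1) * ((qk (L p.1) (p.2 - p.1) : ℂ) * G p.2) :=
      (hcg.comp measurable_fst).mul ((hK.comp measurable_swap).mul (hG.comp measurable_snd))
    refine ⟨hm.aestronglyMeasurable, ?_⟩
    rw [hasFiniteIntegral_iff_enorm, lintegral_prod _ hm.enorm.aemeasurable]
    refine lt_of_le_of_lt (b := ∫⁻ u, ‖g u‖ₑ * (B + 1)) (lintegral_mono fun u => ?_) ?_
    · simp only [enorm_mul (conj (g u))]
      rw [lintegral_const_mul' _ _ (by finiteness), RCLike.enorm_conj]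
      by_cases hu : u ∈ E
      · refine mul_le_mul' le_rfl ?_
        set X := ∫⁻ w, ‖(qk (L u) (w - u) : ℂ) * G w‖ₑ
        rcases le_total X 1 with h | h
        · exact h.trans le_add_self
        · refine (le_self_pow h two_ne_zero).trans (le_trans ?_ le_self_add)
          refine (sq_lintegral_qk_mul_le (hLpos u) u hG).trans
            (mul_le_mul' (ENNReal.ofReal_le_ofReal ?_) le_rfl)
          rw [div_le_iff₀ (hLpos u)]
          have h1 := hu.1
          rw [div_le_iff₀ (by positivity)] at h1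
          nlinarith [Real.pi_pos]
      · simp [hgE u hu]
    · rw [lintegral_mul_const _ hgm.enorm]
      exact ENNReal.mul_lt_top hgint.hasFiniteIntegral
        (ENNReal.add_ne_top.2 ⟨hB, ENNReal.one_ne_top⟩).lt_top
  have hTeq : ∀ w, ∫ u, conj (g u) * ((qk (L u) (w - u) : ℂ) * G w) = G w * Ts w := by
    intro w
    simp only [Ts]
    rw [← integral_const_mul]
    exact integral_congr_ae (ae_of_all _ fun u => by ring)
  have h1 : M ≤ ∫⁻ w, ‖G w‖ₑ * ‖Ts w‖ₑ := by
    have e1 : ∀ u, conj (g u) * g u = ∫ w, conj (g u) * ((qk (L u) (w - u) : ℂ) * G w) := by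
      intro u
      rw [integral_const_mul]
      by_cases hu : u ∈ E
      · simp only [hg, Set.indicator_of_mem hu]; rfl
      · simp [hgE u hu]
    have hnn : ∀ u, ‖g u‖ₑ ^ 2 = ‖conj (g u) * g u‖ₑ := fun u => by
      rw [enorm_mul, RCLike.enorm_conj, sq]
    have e2 : (∫ u, ((‖g u‖ ^ 2 : ℝ) : ℂ)) = ∫ w, G w * Ts w := by
      simp_rw [Complex.ofReal_pow, ← Complex.conj_mul', e1]
      rw [integral_integral_swap hF]
      exact integral_congr_ae (ae_of_all _ hTeq)
    have hgi2 : Integrable fun u => ‖g u‖ ^ 2 := by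
      have := (hgint.norm.const_mul ((B + 1).toReal))
      refine this.mono' (hgm.norm.pow_const 2).aestronglyMeasurable (ae_of_all _ fun u => ?_)
      rw [Real.norm_eq_abs, abs_of_nonneg (sq_nonneg _), sq]
      refine mul_le_mul_of_nonneg_right ?_ (norm_nonneg _)
      rw [← toReal_enorm]
      refine ENNReal.toReal_mono (ENNReal.add_ne_top.2 ⟨hB, ENNReal.one_ne_top⟩) ?_
      rcases le_total ‖g u‖ₑ 1 with h | h
      · exact h.trans le_add_self
      · exact (le_self_pow h two_ne_zero).trans ((hgB u).trans le_self_add)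
    rw [← hgM]
    calc ∫⁻ u, ‖g u‖ₑ ^ 2 = ∫⁻ u, ENNReal.ofReal (‖g u‖ ^ 2) := by
          simp only [ENNReal.ofReal_pow (norm_nonneg _), ofReal_norm]
      _ = ‖∫ u, ((‖g u‖ ^ 2 : ℝ) : ℂ)‖ₑ := by
          rw [integral_complex_ofReal, ← ofReal_norm (E := ℂ), Complex.norm_real,
            Real.norm_eq_abs, abs_of_nonneg (integral_nonneg fun u => sq_nonneg _),
            ofReal_integral_eq_lintegral_ofReal hgi2 (ae_of_all _ fun u => sq_nonneg _)]
      _ ≤ _ := by
          rw [e2]
          refine (enorm_integral_le_lintegral_enorm _).trans (le_of_eq ?_)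
          simp_rw [enorm_mul]
  -- `T T*`
  have hKi : ∀ u u', u ∈ E → u' ∈ E → ‖∫ w, (qk (L u) (w - u) : ℂ) * (qk (L u') (w - u') : ℂ)‖ₑ ≤
      ENNReal.ofReal (6 * Real.pi) * (ENNReal.ofReal (pk (L u) (u' - u)) +
        ENNReal.ofReal (pk (L u') (u - u'))) := by
    intro u u' _ _
    simp_rw [← Complex.ofReal_mul]
    rw [integral_complex_ofReal, ← ofReal_norm, Complex.norm_real, Real.norm_eq_abs,
      ← integral_add_right_eq_self _ u, ← ENNReal.ofReal_add (pk_nonneg (hLpos u).le _)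
        (pk_nonneg (hLpos u').le _), ← ENNReal.ofReal_mul (by positivity)]
    refine ENNReal.ofReal_le_ofReal ?_
    have e : ∀ x, qk (L u) (x + u - u) * qk (L u') (x + u - u') =
        qk (L u) x * qk (L u') (x - (u' - u)) := fun x => by ring_nf
    simp_rw [e]
    rw [← pk_neg (L u') (u - u'), neg_sub]
    exact integral_qk_mul_le (hLpos u) (hLpos u') _
  set Φ : ℝ → ℝ × ℝ → ℂ := fun w p =>
    (qk (L p.1) (w - p.1) : ℂ) * conj (g p.1) * ((qk (L p.2) (w - p.2) : ℂ) * g p.2)
  have hgp : Measurable fun p : ℝ × ℝ => ‖g p.1‖ₑ * ‖g p.2‖ₑ :=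
    (hgm.enorm.comp measurable_fst).mul (hgm.enorm.comp measurable_snd)
  have hΦm : Measurable (Function.uncurry Φ) := by
    refine ((hK.comp (measurable_fst.prodMk (measurable_fst.comp measurable_snd))).mul
      (hcg.comp (measurable_fst.comp measurable_snd))).mul
      ((hK.comp (measurable_fst.prodMk (measurable_snd.comp measurable_snd))).mul
      (hgm.comp (measurable_snd.comp measurable_snd)))
  have hΦ : Integrable (Function.uncurry Φ) (volume.prod (volume.prod volume)) := by
    refine ⟨hΦm.aestronglyMeasurable, ?_⟩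
    rw [hasFiniteIntegral_iff_enorm, lintegral_prod_symm' _ hΦm.enorm]
    refine lt_of_le_of_lt (b := ∫⁻ p : ℝ × ℝ,
      ‖g p.1‖ₑ * ‖g p.2‖ₑ * ENNReal.ofReal (Real.pi * ((n : ℝ) + 1))) (lintegral_mono fun p => ?_) ?_
    · simp only [Function.uncurry, Φ]
      have e : ∀ w, ‖(qk (L p.1) (w - p.1) : ℂ) * conj (g p.1) *
          ((qk (L p.2) (w - p.2) : ℂ) * g p.2)‖ₑ = ‖g p.1‖ₑ * ‖g p.2‖ₑ *
            (ENNReal.ofReal |qk (L p.1) (w - p.1)| * ENNReal.ofReal |qk (L p.2) (w - p.2)|) := by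
        intro w
        simp only [enorm_mul, RCLike.enorm_conj, enorm_ofReal_abs]
        ring
      simp_rw [e]
      rw [lintegral_const_mul' _ _ (by finiteness)]
      by_cases h : p.1 ∈ E ∧ p.2 ∈ E
      · refine mul_le_mul' le_rfl ((ENNReal.pow_le_pow_left_iff two_ne_zero).1 ?_)
        refine (sq_lintegral_mul_le volume ?_ ?_).trans ?_
        · exact (ENNReal.measurable_ofReal.comp (((continuous_qk (hLpos _)).measurable.comp
            (measurable_id.sub_const _)).abs)).aemeasurable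
        · exact (ENNReal.measurable_ofReal.comp (((continuous_qk (hLpos _)).measurable.comp
            (measurable_id.sub_const _)).abs)).aemeasurable
        · rw [sq]
          refine mul_le_mul' ((lintegral_qk_sq (hLpos _) _).trans (ENNReal.ofReal_le_ofReal ?_))
            ((lintegral_qk_sq (hLpos _) _).trans (ENNReal.ofReal_le_ofReal ?_))
          · have h1 := h.1.1
            rw [div_le_iff₀ (by positivity)] at h1
            rw [div_le_iff₀ (hLpos _)]; nlinarith [Real.pi_pos]
          · have h1 := h.2.1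
            rw [div_le_iff₀ (by positivity)] at h1
            rw [div_le_iff₀ (hLpos _)]; nlinarith [Real.pi_pos]
      · rcases not_and_or.1 h with h | h <;> simp [hgE _ h]
    · rw [lintegral_mul_const _ hgp, Measure.volume_eq_prod,
        lintegral_prod_mul hgm.enorm.aemeasurable hgm.enorm.aemeasurable]
      exact ENNReal.mul_lt_top (ENNReal.mul_lt_top hgint.hasFiniteIntegral hgint.hasFiniteIntegral)
        ENNReal.ofReal_lt_top
  rw [← Measure.volume_eq_prod] at hΦ
  have h2 : ∫⁻ w, ‖Ts w‖ₑ ^ 2 ≤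
      ENNReal.ofReal (12 * Real.pi) * ∫⁻ u, ‖g u‖ₑ * pop (L u) (fun v => ‖g v‖ₑ) u := by
    have e : ∀ w, ((‖Ts w‖ ^ 2 : ℝ) : ℂ) = ∫ p : ℝ × ℝ, Φ w p := by
      intro w
      rw [Complex.ofReal_pow, ← Complex.mul_conj', ← integral_conj, ← integral_prod_mul,
        ← Measure.volume_eq_prod]
      exact integral_congr_ae (ae_of_all _ fun p => by simp [Φ])
    have hTi : Integrable fun w => ‖Ts w‖ ^ 2 := by
      have := hΦ.integral_prod_left.norm
      refine this.congr (ae_of_all _ fun w => ?_)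
      simp only [Function.uncurry, ← e w, Complex.norm_real, Real.norm_eq_abs,
        abs_of_nonneg (sq_nonneg ‖Ts w‖)]
    calc ∫⁻ w, ‖Ts w‖ₑ ^ 2 = ‖∫ w, ((‖Ts w‖ ^ 2 : ℝ) : ℂ)‖ₑ := by
          rw [integral_complex_ofReal, ← ofReal_norm (E := ℂ), Complex.norm_real,
            Real.norm_eq_abs, abs_of_nonneg (integral_nonneg fun w => sq_nonneg _),
            ofReal_integral_eq_lintegral_ofReal hTi (ae_of_all _ fun w => sq_nonneg _)]
          simp only [ENNReal.ofReal_pow (norm_nonneg _), ofReal_norm]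
      _ ≤ ∫⁻ p : ℝ × ℝ, ‖∫ w, Φ w p‖ₑ := by
          simp_rw [e]
          rw [integral_integral_swap hΦ]
          exact enorm_integral_le_lintegral_enorm _
      _ ≤ ∫⁻ p : ℝ × ℝ, ENNReal.ofReal (6 * Real.pi) * (‖g p.1‖ₑ * ‖g p.2‖ₑ *
            (ENNReal.ofReal (pk (L p.1) (p.2 - p.1)) + ENNReal.ofReal (pk (L p.2) (p.1 - p.2)))) := by
          refine lintegral_mono fun p => ?_
          have e2 : ∫ w, Φ w p = conj (g p.1) * g p.2 *
              ∫ w, (qk (L p.1) (w - p.1) : ℂ) * (qk (L p.2) (w - p.2) : ℂ) := by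
            rw [← integral_const_mul]
            exact integral_congr_ae (ae_of_all _ fun w => by simp only [Φ]; ring)
          rw [e2, enorm_mul, enorm_mul, RCLike.enorm_conj]
          by_cases h : p.1 ∈ E ∧ p.2 ∈ E
          · rw [mul_left_comm]
            exact mul_le_mul' le_rfl (hKi _ _ h.1 h.2)
          · rcases not_and_or.1 h with h | h <;> simp [hgE _ h]
      _ = _ := by
          have hp : Measurable fun p : ℝ × ℝ =>
              ‖g p.1‖ₑ * (ENNReal.ofReal (pk (L p.1) (p.2 - p.1)) * ‖g p.2‖ₑ) :=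
            (hgm.enorm.comp measurable_fst).mul ((ENNReal.measurable_ofReal.comp (measurable_pk.comp
              ((hLm.comp measurable_fst).prodMk (measurable_snd.sub measurable_fst)))).mul
              (hgm.enorm.comp measurable_snd))
          rw [lintegral_const_mul' _ _ ENNReal.ofReal_ne_top,
            show ENNReal.ofReal (12 * Real.pi) = ENNReal.ofReal (6 * Real.pi) * 2 by
              rw [← ENNReal.ofReal_ofNat, ← ENNReal.ofReal_mul (by positivity)]; congr 1; ring,
            mul_assoc]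
          congr 1
          have hswap : ∫⁻ p : ℝ × ℝ, ‖g p.2‖ₑ * (ENNReal.ofReal (pk (L p.2) (p.1 - p.2)) * ‖g p.1‖ₑ) =
              ∫⁻ p : ℝ × ℝ, ‖g p.1‖ₑ * (ENNReal.ofReal (pk (L p.1) (p.2 - p.1)) * ‖g p.2‖ₑ) :=
            lintegral_prod_swap (fun p => ‖g p.1‖ₑ * (ENNReal.ofReal (pk (L p.1) (p.2 - p.1)) * ‖g p.2‖ₑ))
          calc ∫⁻ p : ℝ × ℝ, ‖g p.1‖ₑ * ‖g p.2‖ₑ * (ENNReal.ofReal (pk (L p.1) (p.2 - p.1)) +
                ENNReal.ofReal (pk (L p.2) (p.1 - p.2)))
              = (∫⁻ p : ℝ × ℝ, ‖g p.1‖ₑ * (ENNReal.ofReal (pk (L p.1) (p.2 - p.1)) * ‖g p.2‖ₑ)) +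
                ∫⁻ p : ℝ × ℝ, ‖g p.2‖ₑ * (ENNReal.ofReal (pk (L p.2) (p.1 - p.2)) * ‖g p.1‖ₑ) := by
                rw [← lintegral_add_left hp]
                exact lintegral_congr fun p => by ring
            _ = 2 * ∫⁻ u, ‖g u‖ₑ * pop (L u) (fun v => ‖g v‖ₑ) u := by
                rw [hswap, ← two_mul, Measure.volume_eq_prod, lintegral_prod _ hp.aemeasurable]
                congr 1
                refine lintegral_congr fun u => ?_
                rw [pop, ← lintegral_const_mul' _ _ (by finiteness)]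
  have h3 : (∫⁻ u, ‖g u‖ₑ * pop (L u) (fun v => ‖g v‖ₑ) u) ≤
      ENNReal.ofReal (16 * Real.pi) * M := by
    refine (ENNReal.pow_le_pow_left_iff two_ne_zero).1 ?_
    refine (sq_lintegral_mul_le volume hgm.enorm.aemeasurable
      (measurable_pop hLm measurable_id hgm.enorm).aemeasurable).trans ?_
    refine (mul_le_mul' le_rfl (pop_sq_le hLm hLpos hgm.enorm)).trans (le_of_eq ?_)
    rw [hgM, show 4 * (8 * Real.pi) ^ 2 = (16 * Real.pi) ^ 2 by ring,
      ENNReal.ofReal_pow (by positivity)]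
    ring
  have h4 : M ^ 2 ≤ H * (ENNReal.ofReal (12 * Real.pi * (16 * Real.pi)) * M) := by
    refine (pow_le_pow_left' h1 2).trans ((sq_lintegral_mul_le volume hG.enorm.aemeasurable
      hTsm.enorm.aemeasurable).trans (mul_le_mul' le_rfl (h2.trans ?_)))
    refine (mul_le_mul' le_rfl h3).trans (le_of_eq ?_)
    rw [← mul_assoc, ← ENNReal.ofReal_mul (by positivity)]
  rcases eq_or_ne M 0 with h0 | h0
  · rw [h0]; exact bot_le
  have hMfin : M ≠ ∞ := by
    have h5 : ∫⁻ u, ‖g u‖ₑ ^ 2 ≤ ∫⁻ u, E.indicator (fun _ => B) u := lintegral_mono fun u => by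
      by_cases hu : u ∈ E
      · rw [Set.indicator_of_mem hu]; exact hgB u
      · simp [hgE u hu, hu]
    rw [hgM, lintegral_indicator hE, setLIntegral_const] at h5
    exact ne_top_of_le_ne_top (ENNReal.mul_ne_top hB hvol) h5
  rw [← mul_assoc, mul_comm H, sq] at h4
  exact (ENNReal.mul_le_mul_iff_left h0 hMfin).1 h4

/-- Conjugate Poisson integrals of measurable width are bounded on `L²`. -/
theorem qop_sq_le (hLm : Measurable L) (hLpos : ∀ u, 0 < L u) {G : ℝ → ℂ} (hG : Measurable G) :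
    ∫⁻ u, ‖qop (L u) G u‖ₑ ^ 2 ≤
      ENNReal.ofReal (12 * Real.pi * (16 * Real.pi)) * ∫⁻ w, ‖G w‖ₑ ^ 2 := by
  by_cases hfin : ∫⁻ w, ‖G w‖ₑ ^ 2 = ∞
  · rw [hfin, ENNReal.mul_top (by simp; positivity)]
    exact le_top
  set E : ℕ → Set ℝ := fun n => {u | 1 / ((n : ℝ) + 1) ≤ L u ∧ |u| ≤ n}
  have hu : (⋃ n, E n) = univ := by
    refine eq_univ_of_forall fun u => mem_iUnion.2 ?_
    obtain ⟨n, hn⟩ := exists_nat_gt (max |u| (1 / L u))
    refine ⟨n, ?_, (lt_of_le_of_lt (le_max_left _ _) hn).le⟩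
    rw [div_le_iff₀ (by positivity)]
    have := lt_of_le_of_lt (le_max_right _ _) hn
    rw [div_lt_iff₀ (hLpos u)] at this
    nlinarith [hLpos u]
  have hmono : Monotone E := by
    intro m k hmk u hu
    have h' : (m : ℝ) ≤ k := by exact_mod_cast hmk
    exact ⟨le_trans (by gcongr) hu.1, hu.2.trans h'⟩
  rw [← setLIntegral_univ, ← hu, setLIntegral_iUnion_of_directed _ hmono.directed_le]
  exact iSup_le fun n => qop_sq_on hLm hLpos hG hfin n

end bound

end Vale.Agent.P112.Mode
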