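import Mathlib

/-!
P112: the truncated directional Hilbert transform in the plane, with the plane written as `ℂ`.
-/

open MeasureTheory

noncomputable section

namespace Vale.Agent.P112.Mode

/-- The truncated Hilbert transform of `f` along the field `v`, with `ε < |t| < a`. -/
def truncHilbert (v : ℂ → ℂ) (ε a : ℝ) (f : ℂ → ℂ) (x : ℂ) : ℂ :=
  ∫ t : ℝ in {t : ℝ | ε < |t| ∧ |t| < a}, ((1 / t : ℝ) : ℂ) * f (x - (t : ℂ) * v x)

end Vale.Agent.P112.Mode
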