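import Vale.Agent.P112.Mode.Pois

/-!
P112: the fold average, dominated by Poisson averages over scales.
-/

open MeasureTheory Filter Set
open scoped Topology ENNReal

noncomputable section

namespace Vale.Agent.P112.Mode

/-- The substitution `y = t ^ 2`. -/
lemma lintegral_sq_subst (Φ : ℝ → ℝ≥0∞) :
    ∫⁻ t in Ioi (0 : ℝ), ENNReal.ofReal (2 * t) * Φ (t ^ 2) = ∫⁻ y in Ioi (0 : ℝ), Φ y := by
  have him : (fun t : ℝ => t ^ 2) '' Ioi 0 = Ioi 0 := by
    ext y
    constructor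
    · rintro ⟨t, ht, rfl⟩; exact pow_pos (mem_Ioi.1 ht) 2
    · intro hy; exact ⟨√y, Real.sqrt_pos.2 hy, Real.sq_sqrt (le_of_lt hy)⟩
  have hinj : InjOn (fun t : ℝ => t ^ 2) (Ioi 0) := fun s hs t ht h =>
    (pow_left_inj₀ (le_of_lt hs) (le_of_lt ht) two_ne_zero).1 h
  have hd : ∀ t ∈ Ioi (0 : ℝ), HasDerivWithinAt (fun t : ℝ => t ^ 2) (2 * t) (Ioi 0) t := by
    intro t _
    simpa using (hasDerivAt_pow 2 t).hasDerivWithinAt
  conv_rhs => rw [← him, lintegral_image_eq_lintegral_abs_deriv_mul measurableSet_Ioi hd hinj]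
  refine setLIntegral_congr_fun measurableSet_Ioi fun t ht => ?_
  simp only [abs_of_pos (show 0 < 2 * t from mul_pos two_pos ht)]

/-- The scale weight. -/
def wt (l : ℝ) : ℝ := 1 / (√l * (1 + l))

lemma wt_nonneg {l : ℝ} (hl : 0 ≤ l) : 0 ≤ wt l := by unfold wt; positivity

lemma lintegral_wt : ∫⁻ l in Ioi (0 : ℝ), ENNReal.ofReal (wt l) ≤ ENNReal.ofReal (2 * Real.pi) := by
  rw [← lintegral_sq_subst fun l => ENNReal.ofReal (wt l)]
  calc ∫⁻ t in Ioi (0 : ℝ), ENNReal.ofReal (2 * t) * ENNReal.ofReal (wt (t ^ 2))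
      = ∫⁻ t in Ioi (0 : ℝ), ENNReal.ofReal (2 * (1 + t ^ 2)⁻¹) := by
        refine setLIntegral_congr_fun measurableSet_Ioi fun t ht => ?_
        have ht' : 0 < t := ht
        rw [← ENNReal.ofReal_mul (by positivity)]
        congr 1
        rw [wt, Real.sqrt_sq ht'.le]
        field_simp
    _ ≤ ∫⁻ t, ENNReal.ofReal (2 * (1 + t ^ 2)⁻¹) := setLIntegral_le_lintegral _ _
    _ = _ := by
        rw [← ofReal_integral_eq_lintegral_ofReal (integrable_inv_one_add_sq.const_mul 2)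
          (ae_of_all _ fun t => by positivity), integral_const_mul, integral_univ_inv_one_add_sq]

/-- The fold average of width `L` at `z`. -/
def fold (L : ℝ) (h : ℝ → ℝ≥0∞) (z : ℝ) : ℝ≥0∞ :=
  ∫⁻ τ, ENNReal.ofReal (pk L τ) * h (z + τ ^ 2)

@[fun_prop]
lemma measurable_fold {α : Type*} [MeasurableSpace α] {L z : α → ℝ} (hL : Measurable L)
    (hz : Measurable z) {h : ℝ → ℝ≥0∞} (hh : Measurable h) :
    Measurable fun a => fold (L a) h (z a) := by
  refine Measurable.lintegral_prod_right' (f := fun p : α × ℝ =>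
    ENNReal.ofReal (pk (L p.1) p.2) * h (z p.1 + p.2 ^ 2)) ?_
  exact (ENNReal.measurable_ofReal.comp (measurable_pk.comp ((hL.comp measurable_fst).prodMk
    measurable_snd))).mul (hh.comp ((hz.comp measurable_fst).add (measurable_snd.pow_const 2)))

lemma lintegral_even {Φ : ℝ → ℝ≥0∞} (h : ∀ t, Φ (-t) = Φ t) :
    ∫⁻ t, Φ t = 2 * ∫⁻ t in Ioi (0 : ℝ), Φ t := by
  rw [← lintegral_add_compl (μ := volume) Φ (measurableSet_Ioi (a := (0 : ℝ))), compl_Ioi, two_mul]
  congr 1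
  rw [← setLIntegral_congr Iio_ae_eq_Iic]
  have hp := Measure.measurePreserving_neg (volume : Measure ℝ)
  rw [← hp.setLIntegral_comp_preimage_emb (Homeomorph.neg ℝ).measurableEmbedding Φ (Ioi 0)]
  simp [h]

lemma pk_scales {L τ : ℝ} (hL : 0 < L) (hτ : 0 < τ) {l : ℝ}
    (hl : l ∈ Icc (τ ^ 2 / L ^ 2) (2 * (τ ^ 2 / L ^ 2))) :
    pk L τ / 8 / (τ ^ 2 / L ^ 2) ≤ wt l * (2 * τ * pk (l * L ^ 2) (τ ^ 2)) := by
  set q := τ ^ 2 / L ^ 2 with hq
  have hq0 : 0 < q := by positivity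
  obtain ⟨h1, h2⟩ := hl
  have hl0 : 0 < l := lt_of_lt_of_le hq0 h1
  have e : τ ^ 2 = q * L ^ 2 := by rw [hq]; field_simp
  have hs : √l ≤ 3 / 2 * (τ / L) := by
    rw [Real.sqrt_le_left (by positivity)]
    calc l ≤ 2 * q := h2
      _ ≤ (3 / 2 * (τ / L)) ^ 2 := by rw [mul_pow, div_pow τ L 2, ← hq]; linarith
  have hw : 1 / (3 / 2 * (τ / L) * (1 + 2 * q)) ≤ wt l := by
    rw [wt]
    gcongr
  have hp : 1 / (5 * τ ^ 2) ≤ pk (l * L ^ 2) (τ ^ 2) := by
    rw [pk, div_le_div_iff₀ (by positivity) (by positivity), e]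
    nlinarith [mul_nonneg (mul_nonneg (sub_nonneg.2 h1) (sub_nonneg.2 h2))
      (sq_nonneg (L ^ 2)), mul_nonneg (mul_nonneg hq0.le (sub_nonneg.2 h1)) (sq_nonneg (L ^ 2))]
  refine le_trans ?_ (mul_le_mul hw (mul_le_mul_of_nonneg_left hp (by positivity)) (by positivity)
    (wt_nonneg hl0.le))
  rw [hq, pk]
  field_simp
  nlinarith [sq_nonneg τ, sq_nonneg L, mul_pos hL hτ, pow_pos hτ 2, pow_pos hL 2]

lemma fold_le {L : ℝ} (hL : 0 < L) {h : ℝ → ℝ≥0∞} (hh : Measurable h) (z : ℝ) :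
    fold L h z ≤ 16 * ∫⁻ l in Ioi (0 : ℝ), ENNReal.ofReal (wt l) * pop (l * L ^ 2) h z := by
  have hpt : ∀ τ ∈ Ioi (0 : ℝ), ENNReal.ofReal (pk L τ) ≤
      8 * ∫⁻ l in Ioi (0 : ℝ), ENNReal.ofReal (wt l) *
        (ENNReal.ofReal (2 * τ) * ENNReal.ofReal (pk (l * L ^ 2) (τ ^ 2))) := by
    intro τ hτ
    have hτ' : 0 < τ := hτ
    set q := τ ^ 2 / L ^ 2
    have hq : 0 < q := by positivity
    have h1 : ENNReal.ofReal (pk L τ / 8 / q) * volume (Icc q (2 * q)) ≤
        ∫⁻ l in Ioi (0 : ℝ), ENNReal.ofReal (wt l) *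
          (ENNReal.ofReal (2 * τ) * ENNReal.ofReal (pk (l * L ^ 2) (τ ^ 2))) := by
      rw [← setLIntegral_const]
      refine (setLIntegral_mono' measurableSet_Icc fun l hl => ?_).trans
        (lintegral_mono_set fun l hl => lt_of_lt_of_le hq hl.1)
      rw [← ENNReal.ofReal_mul (by positivity),
        ← ENNReal.ofReal_mul (wt_nonneg (hq.le.trans hl.1))]
      exact ENNReal.ofReal_le_ofReal (pk_scales hL hτ' hl)
    have h0 : 0 ≤ pk L τ := pk_nonneg hL.le τ
    rw [Real.volume_Icc, ← ENNReal.ofReal_mul (by positivity),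
      show pk L τ / 8 / q * (2 * q - q) = pk L τ / 8 by field_simp; ring] at h1
    refine le_trans ?_ (mul_le_mul' le_rfl h1)
    rw [← ENNReal.ofReal_ofNat, ← ENNReal.ofReal_mul (by norm_num)]
    exact le_of_eq (by congr 1; ring)
  rw [fold, lintegral_even (fun t => by rw [pk_neg, neg_sq]),
    show (16 : ℝ≥0∞) = 2 * 8 by norm_num, mul_assoc]
  refine mul_le_mul' le_rfl ?_
  have hF : Measurable fun p : ℝ × ℝ => ENNReal.ofReal (wt p.2) *
      (ENNReal.ofReal (2 * p.1) * ENNReal.ofReal (pk (p.2 * L ^ 2) (p.1 ^ 2))) * h (z + p.1 ^ 2) := by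
    unfold wt pk; fun_prop
  calc ∫⁻ τ in Ioi (0 : ℝ), ENNReal.ofReal (pk L τ) * h (z + τ ^ 2)
      ≤ ∫⁻ τ in Ioi (0 : ℝ), 8 * ∫⁻ l in Ioi (0 : ℝ), ENNReal.ofReal (wt l) *
          (ENNReal.ofReal (2 * τ) * ENNReal.ofReal (pk (l * L ^ 2) (τ ^ 2))) * h (z + τ ^ 2) := by
        refine setLIntegral_mono' measurableSet_Ioi fun τ hτ => ?_
        have hm : Measurable fun l => ENNReal.ofReal (wt l) *
            (ENNReal.ofReal (2 * τ) * ENNReal.ofReal (pk (l * L ^ 2) (τ ^ 2))) := by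
          unfold wt pk; fun_prop
        refine (mul_le_mul' (hpt τ hτ) le_rfl).trans (le_of_eq ?_)
        rw [lintegral_mul_const _ hm, mul_assoc]
    _ = 8 * ∫⁻ l in Ioi (0 : ℝ), ∫⁻ τ in Ioi (0 : ℝ), ENNReal.ofReal (wt l) *
          (ENNReal.ofReal (2 * τ) * ENNReal.ofReal (pk (l * L ^ 2) (τ ^ 2))) * h (z + τ ^ 2) := by
        rw [lintegral_const_mul' _ _ (by norm_num), lintegral_lintegral_swap hF.aemeasurable]
    _ ≤ _ := by
        refine mul_le_mul' le_rfl (setLIntegral_mono' measurableSet_Ioi fun l _ => ?_)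
        have e : ∀ τ : ℝ, ENNReal.ofReal (wt l) *
            (ENNReal.ofReal (2 * τ) * ENNReal.ofReal (pk (l * L ^ 2) (τ ^ 2))) * h (z + τ ^ 2) =
            ENNReal.ofReal (wt l) * (ENNReal.ofReal (2 * τ) *
              (fun y => ENNReal.ofReal (pk (l * L ^ 2) y) * h (z + y)) (τ ^ 2)) := fun τ => by ring
        simp_rw [e]
        rw [lintegral_const_mul' _ _ ENNReal.ofReal_ne_top,
          lintegral_sq_subst fun y => ENNReal.ofReal (pk (l * L ^ 2) y) * h (z + y), pop]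
        refine mul_le_mul' le_rfl ((setLIntegral_le_lintegral _ _).trans (le_of_eq ?_))
        rw [← lintegral_add_left_eq_self (fun w => ENNReal.ofReal (pk (l * L ^ 2) (w - z)) * h w) z]
        simp

/-- Fold averages of measurable width are bounded on `L²`. -/
theorem fold_sq_le {L : ℝ → ℝ} (hLm : Measurable L) (hLpos : ∀ z, 0 < L z) {h : ℝ → ℝ≥0∞}
    (hh : Measurable h) :
    ∫⁻ z, fold (L z) h z ^ 2 ≤
      ENNReal.ofReal (256 * (2 * Real.pi) ^ 2 * (4 * (8 * Real.pi) ^ 2)) * ∫⁻ w, h w ^ 2 := by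
  set K := ENNReal.ofReal (4 * (8 * Real.pi) ^ 2)
  set W := ENNReal.ofReal (2 * Real.pi)
  have hwm : Measurable fun l => ENNReal.ofReal (wt l) := by unfold wt; fun_prop
  have hP : Measurable fun p : ℝ × ℝ => pop (p.2 * L p.1 ^ 2) h p.1 :=
    measurable_pop (measurable_snd.mul ((hLm.comp measurable_fst).pow_const 2)) measurable_fst hh
  calc ∫⁻ z, fold (L z) h z ^ 2
      ≤ ∫⁻ z, 256 * (W * ∫⁻ l in Ioi (0 : ℝ), ENNReal.ofReal (wt l) * pop (l * L z ^ 2) h z ^ 2) := by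
        refine lintegral_mono fun z => (pow_le_pow_left' (fold_le (hLpos z) hh z) 2).trans ?_
        rw [mul_pow, show (16 : ℝ≥0∞) ^ 2 = 256 by norm_num]
        refine mul_le_mul' le_rfl ((sq_lintegral_weight_le _ hwm
          (hP.comp (measurable_const.prodMk measurable_id))).trans (mul_le_mul' lintegral_wt le_rfl))
    _ = 256 * (W * ∫⁻ l in Ioi (0 : ℝ), ENNReal.ofReal (wt l) * ∫⁻ z, pop (l * L z ^ 2) h z ^ 2) := by
        rw [lintegral_const_mul' _ _ (by norm_num), lintegral_const_mul' _ _ ENNReal.ofReal_ne_top,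
          lintegral_lintegral_swap]
        · congr 2
          exact lintegral_congr fun l => lintegral_const_mul' _ _ ENNReal.ofReal_ne_top
        · exact ((hwm.comp measurable_snd).mul (hP.pow_const 2)).aemeasurable
    _ ≤ 256 * (W * ∫⁻ l in Ioi (0 : ℝ), ENNReal.ofReal (wt l) * (K * ∫⁻ w, h w ^ 2)) := by
        refine mul_le_mul' le_rfl (mul_le_mul' le_rfl (setLIntegral_mono' measurableSet_Ioi fun l hl => ?_))
        exact mul_le_mul' le_rfl (pop_sq_le (L := fun z => l * L z ^ 2) (by fun_prop)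
          (fun z => mul_pos hl (pow_pos (hLpos z) 2)) hh)
    _ ≤ 256 * (W * (W * (K * ∫⁻ w, h w ^ 2))) := by
        rw [lintegral_mul_const _ hwm]
        gcongr
        exact lintegral_wt
    _ = _ := by
        rw [ENNReal.ofReal_mul (by positivity : (0 : ℝ) ≤ 256 * (2 * Real.pi) ^ 2),
          ENNReal.ofReal_mul (by norm_num : (0 : ℝ) ≤ 256), sq (2 * Real.pi),
          ENNReal.ofReal_mul (by positivity : (0 : ℝ) ≤ 2 * Real.pi),
          ENNReal.ofReal_ofNat]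
        ring

end Vale.Agent.P112.Mode
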