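import Vale.Agent.P112.Mode.Def

/-!
P112: angular modes and change of variables by maps with Lipschitz inverse.
-/

open MeasureTheory Filter Set
open scoped Topology ENNReal NNReal ComplexConjugate

noncomputable section

namespace Vale.Agent.P112.Mode

/-- Preimages under a map with `2`-Lipschitz inverse have controlled Hausdorff measure. -/
lemma hausdorff_preimage_le {E : Type*} [MetricSpace E] [MeasurableSpace E] [BorelSpace E]
    {S : Set E} {Φ : E → E} (hΦ : ∀ x ∈ S, ∀ y ∈ S, dist x y ≤ 2 * dist (Φ x) (Φ y))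
    {d : ℝ} (hd : 0 ≤ d) (A : Set E) : μH[d] (Φ ⁻¹' A ∩ S) ≤ (2 : ℝ≥0∞) ^ d * μH[d] A := by
  classical
  rcases isEmpty_or_nonempty E with hE | hE
  · simp [Subsingleton.elim (Φ ⁻¹' A ∩ S) ∅]
  set U := Function.invFunOn Φ S
  have hspec : ∀ x ∈ Φ '' S, U x ∈ S ∧ Φ (U x) = x := fun x hx => Function.invFunOn_pos hx
  have hLip : LipschitzOnWith 2 U (A ∩ Φ '' S) := LipschitzOnWith.of_dist_le_mul fun x hx y hy => by
    obtain ⟨h1, h2⟩ := hspec x hx.2
    obtain ⟨h3, h4⟩ := hspec y hy.2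
    simpa [h2, h4] using hΦ _ h1 _ h3
  have hinj : InjOn Φ S := fun x hx y hy h => by
    simpa [h] using hΦ x hx y hy
  have hsub : Φ ⁻¹' A ∩ S ⊆ U '' (A ∩ Φ '' S) := fun x hx =>
    ⟨Φ x, ⟨hx.1, mem_image_of_mem Φ hx.2⟩, hinj.leftInvOn_invFunOn hx.2⟩
  refine (measure_mono hsub).trans ((hLip.hausdorffMeasure_image_le hd).trans ?_)
  rw [ENNReal.coe_ofNat]
  gcongr
  exact inter_subset_left

/-- Change of variables on the line. -/
lemma real_comp_le {S : Set ℝ} {z : ℝ → ℝ} (hz : Measurable z)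
    (hlow : ∀ x ∈ S, ∀ y ∈ S, dist x y ≤ 2 * dist (z x) (z y)) {φ : ℝ → ℝ≥0∞}
    (hφ : Measurable φ) : ∫⁻ u in S, φ (z u) ≤ 2 * ∫⁻ w, φ w := by
  have hle : Measure.map z (volume.restrict S) ≤ (2 : ℝ≥0∞) • volume := by
    refine Measure.le_iff.2 fun A hA => ?_
    rw [Measure.map_apply hz hA, Measure.restrict_apply (hz hA), Measure.smul_apply, smul_eq_mul]
    have := hausdorff_preimage_le hlow (d := 1) zero_le_one A
    rwa [hausdorffMeasure_real, ENNReal.rpow_one] at this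
  rw [← lintegral_map hφ hz]
  refine (lintegral_mono' hle le_rfl).trans ?_
  rw [lintegral_smul_measure, smul_eq_mul]

/-- Change of variables in the plane. -/
lemma complex_comp_le {S : Set ℂ} {Φ : ℂ → ℂ} (hΦ : Measurable Φ)
    (hlow : ∀ x ∈ S, ∀ y ∈ S, dist x y ≤ 2 * dist (Φ x) (Φ y)) {φ : ℂ → ℝ≥0∞}
    (hφ : Measurable φ) : ∫⁻ x in S, φ (Φ x) ≤ 4 * ∫⁻ y, φ y := by
  have : Measure.IsAddHaarMeasure (μH[2] : Measure ℂ) := by
    have := isAddHaarMeasure_hausdorffMeasure (E := ℂ)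
    rwa [Complex.finrank_real_complex, Nat.cast_ofNat] at this
  set κ := Measure.addHaarScalarFactor (volume : Measure ℂ) (μH[2])
  have hvol : (volume : Measure ℂ) = κ • (μH[2]) := Measure.isAddLeftInvariant_eq_smul _ _
  have hle : Measure.map Φ (volume.restrict S) ≤ (4 : ℝ≥0∞) • volume := by
    refine Measure.le_iff.2 fun A hA => ?_
    rw [Measure.map_apply hΦ hA, Measure.restrict_apply (hΦ hA), Measure.smul_apply, smul_eq_mul,
      hvol, Measure.smul_apply, Measure.smul_apply, ENNReal.smul_def, ENNReal.smul_def, smul_eq_mul,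
      smul_eq_mul, mul_left_comm]
    refine mul_le_mul' le_rfl ?_
    have := hausdorff_preimage_le hlow (d := 2) zero_le_two A
    rwa [ENNReal.rpow_two, show (2 : ℝ≥0∞) ^ 2 = 4 by norm_num] at this
  rw [← lintegral_map hφ hΦ]
  refine (lintegral_mono' hle le_rfl).trans ?_
  rw [lintegral_smul_measure, smul_eq_mul]

/-- The unit vector of `z`. -/
def dir (z : ℂ) : ℂ := z / (‖z‖ : ℂ)

lemma norm_dir {z : ℂ} (hz : z ≠ 0) : ‖dir z‖ = 1 := by
  simp [dir, hz]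

lemma dir_mul {z : ℂ} : dir z * (‖z‖ : ℂ) = z := by
  rcases eq_or_ne z 0 with rfl | hz
  · simp
  · rw [dir, div_mul_cancel₀]; simpa using hz

lemma norm_dir_sub_le {y x : ℂ} (hy : y ≠ 0) (hx : x ≠ 0) :
    ‖dir y - dir x‖ ≤ 2 * ‖y - x‖ / ‖x‖ := by
  have hxn : 0 < ‖x‖ := norm_pos_iff.2 hx
  rw [le_div_iff₀ hxn]
  have e : (dir y - dir x) * (‖x‖ : ℂ) = (y - x) + dir y * ((‖x‖ - ‖y‖ : ℝ) : ℂ) := by
    rw [sub_mul, dir_mul, Complex.ofReal_sub, mul_sub, dir_mul]; ring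
  calc ‖dir y - dir x‖ * ‖x‖ = ‖(dir y - dir x) * (‖x‖ : ℂ)‖ := by simp
    _ ≤ ‖y - x‖ + |‖x‖ - ‖y‖| := by
        rw [e]
        refine (norm_add_le _ _).trans (le_of_eq ?_)
        rw [norm_mul, norm_dir hy, Complex.norm_real, Real.norm_eq_abs, one_mul]
    _ ≤ _ := by linarith [abs_norm_sub_norm_le x y, norm_sub_rev x y]

lemma norm_zpow_sub_le {a b : ℂ} (ha : ‖a‖ = 1) (hb : ‖b‖ = 1) (m : ℤ) :
    ‖a ^ m - b ^ m‖ ≤ |(m : ℝ)| * ‖a - b‖ := by
  have hn : ∀ {a b : ℂ}, ‖a‖ = 1 → ‖b‖ = 1 → ∀ n : ℕ, ‖a ^ n - b ^ n‖ ≤ n * ‖a - b‖ := by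
    intro a b ha hb n
    induction n with
    | zero => simp
    | succ n ih =>
      calc ‖a ^ (n + 1) - b ^ (n + 1)‖ = ‖a ^ n * (a - b) + (a ^ n - b ^ n) * b‖ := by ring_nf
        _ ≤ ‖a - b‖ + ‖a ^ n - b ^ n‖ := by
            refine (norm_add_le _ _).trans (le_of_eq ?_)
            simp [ha, hb]
        _ ≤ _ := by push_cast; linarith
  obtain ⟨n, rfl | rfl⟩ := Int.eq_nat_or_neg m
  · simpa using hn ha hb n
  · have ha0 : a ≠ 0 := norm_ne_zero_iff.1 (by rw [ha]; exact one_ne_zero)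
    have hb0 : b ≠ 0 := norm_ne_zero_iff.1 (by rw [hb]; exact one_ne_zero)
    rw [zpow_neg, zpow_neg, zpow_natCast, zpow_natCast, inv_sub_inv (pow_ne_zero n ha0)
      (pow_ne_zero n hb0), norm_div, norm_mul, norm_pow, norm_pow, ha, hb, one_pow, mul_one,
      div_one, norm_sub_rev]
    simpa using hn ha hb n

/-- The radial profile, as a function of the squared radius. -/
def prof (f : ℂ → ℂ) (w : ℝ) : ℂ := f ((√|w| : ℝ) : ℂ)

lemma continuous_prof {f : ℂ → ℂ} (hf : Continuous f) : Continuous (prof f) :=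
  hf.comp (by fun_prop)

lemma prof_neg (f : ℂ → ℂ) (w : ℝ) : prof f (-w) = prof f w := by simp [prof]

lemma eq_dir_prof {f : ℂ → ℂ} {m : ℤ} (hm : ∀ w x : ℂ, ‖w‖ = 1 → f (w * x) = w ^ m * f x)
    {z : ℂ} (hz : z ≠ 0) : f z = dir z ^ m * prof f (‖z‖ ^ 2) := by
  rw [prof, abs_of_nonneg (sq_nonneg _), Real.sqrt_sq (norm_nonneg z), ← hm _ _ (norm_dir hz),
    dir_mul]

lemma norm_sub_smul_sq (x v : ℂ) (hv : ‖v‖ = 1) (t : ℝ) :
    ‖x - (t : ℂ) * v‖ ^ 2 = ‖x‖ ^ 2 + (t ^ 2 - 2 * (conj v * x).re * t) := by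
  have h1 : Complex.normSq v = 1 := by rw [← Complex.sq_norm, hv, one_pow]
  rw [Complex.sq_norm, Complex.sq_norm, Complex.normSq_sub, map_mul Complex.normSq, h1,
    Complex.normSq_ofReal]
  simp only [Complex.mul_re, map_mul, Complex.conj_ofReal, Complex.mul_im, Complex.ofReal_re,
    Complex.ofReal_im, Complex.conj_re, Complex.conj_im]
  ring

end Vale.Agent.P112.Mode
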