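import Vale.Agent.P112.Mode.Slice
import Vale.Agent.P112.Mode.Geom

/-!
P112: truncated Hilbert transforms along Lipschitz fields are bounded on every angular mode.
-/

open MeasureTheory Filter Set
open scoped Topology ENNReal NNReal ComplexConjugate

noncomputable section

namespace Vale.Agent.P112.Mode

section radial

lemma polar_lintegral {F : ℂ → ℝ≥0∞} (hF : Measurable F) :
    ∫⁻ x, F x = ∫⁻ φ in Ioo (-Real.pi) Real.pi,
      ∫⁻ r in Ioi (0 : ℝ), ENNReal.ofReal r * F (Complex.polarCoord.symm (r, φ)) := by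
  rw [← Complex.lintegral_comp_polarCoord_symm F, polarCoord_target, Measure.volume_eq_prod,
    ← Measure.prod_restrict, lintegral_prod_symm']
  · rfl
  · have : ⇑Complex.polarCoord.symm = fun p : ℝ × ℝ =>
        (p.1 : ℂ) * ((Real.cos p.2 : ℂ) + (Real.sin p.2 : ℂ) * Complex.I) :=
      funext Complex.polarCoord_symm_apply
    refine (ENNReal.measurable_ofReal.comp measurable_fst).mul (hF.comp ?_)
    rw [this]; fun_prop

/-- The unit vector at angle `φ`. -/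
def unit (φ : ℝ) : ℂ := (Real.cos φ : ℂ) + (Real.sin φ : ℂ) * Complex.I

lemma polar_eq (r φ : ℝ) : Complex.polarCoord.symm (r, φ) = (r : ℂ) * unit φ :=
  Complex.polarCoord_symm_apply _

lemma norm_unit (φ : ℝ) : ‖unit φ‖ = 1 := by
  rw [unit, Complex.norm_add_mul_I, Real.cos_sq_add_sin_sq, Real.sqrt_one]

variable {f : ℂ → ℂ} {m : ℤ}

lemma enorm_mode (hm : ∀ w x : ℂ, ‖w‖ = 1 → f (w * x) = w ^ m * f x) {z : ℂ} (hz : z ≠ 0) :
    ‖f z‖ₑ = ‖prof f (‖z‖ ^ 2)‖ₑ := by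
  rw [eq_dir_prof hm hz, enorm_mul, ← ofReal_norm (dir z ^ m), norm_zpow, norm_dir hz, one_zpow,
    ENNReal.ofReal_one, one_mul]

lemma profile_sq (hf : Continuous f) (hm : ∀ w x : ℂ, ‖w‖ = 1 → f (w * x) = w ^ m * f x) :
    ENNReal.ofReal Real.pi * ∫⁻ w, ‖prof f w‖ₑ ^ 2 = 2 * ∫⁻ x, ‖f x‖ₑ ^ 2 := by
  rw [polar_lintegral (hf.measurable.enorm.pow_const 2)]
  have e : ∀ φ : ℝ, ∫⁻ r in Ioi (0 : ℝ),
      ENNReal.ofReal r * ‖f (Complex.polarCoord.symm (r, φ))‖ₑ ^ 2 =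
      ENNReal.ofReal (1 / 2) * ∫⁻ u in Ioi (0 : ℝ), ‖prof f u‖ₑ ^ 2 := by
    intro φ
    rw [← lintegral_sq_subst fun u => ‖prof f u‖ₑ ^ 2, ← lintegral_const_mul' _ _ ENNReal.ofReal_ne_top]
    refine setLIntegral_congr_fun measurableSet_Ioi fun r hr => ?_
    have hr' : 0 < r := hr
    have hz : Complex.polarCoord.symm (r, φ) ≠ 0 := by
      rw [← norm_pos_iff, Complex.norm_polarCoord_symm]; simpa using abs_pos.2 hr'.ne'
    rw [enorm_mode hm hz, Complex.norm_polarCoord_symm, sq_abs, ← mul_assoc,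
      ← ENNReal.ofReal_mul (by norm_num)]
    congr 2
    ring
  simp_rw [e]
  rw [setLIntegral_const, Real.volume_Ioo, lintegral_even (fun u => by rw [prof_neg]),
    show Real.pi - -Real.pi = 2 * Real.pi by ring, ENNReal.ofReal_mul zero_le_two,
    ENNReal.ofReal_ofNat]
  calc ENNReal.ofReal Real.pi * (2 * ∫⁻ u in Ioi (0 : ℝ), ‖prof f u‖ₑ ^ 2)
      = (ENNReal.ofReal (1 / 2) * 2) * (2 * (ENNReal.ofReal Real.pi *
          ∫⁻ u in Ioi (0 : ℝ), ‖prof f u‖ₑ ^ 2)) := by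
        rw [show ENNReal.ofReal (1 / 2) * 2 = 1 by
          rw [← ENNReal.ofReal_ofNat, ← ENNReal.ofReal_mul (by norm_num)]; norm_num]
        ring
    _ = _ := by ring

lemma prof_sq_ne_top (hf : Continuous f) (hm : ∀ w x : ℂ, ‖w‖ = 1 → f (w * x) = w ^ m * f x)
    (hfin : ∫⁻ x, ‖f x‖ₑ ^ 2 ≠ ∞) : ∫⁻ w, ‖prof f w‖ₑ ^ 2 ≠ ∞ := by
  intro h
  have := profile_sq hf hm
  rw [h, ENNReal.mul_top (by simp [Real.pi_pos])] at this
  exact ENNReal.mul_ne_top (by norm_num) hfin this.symm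

variable {v : ℂ → ℂ}

/-- The component of the field along `x`. -/
def along (v : ℂ → ℂ) (x : ℂ) : ℝ := (conj (v x) * x).re

/-- The component of the field along the ray at angle `φ`, in terms of the squared radius. -/
def rayAlong (v : ℂ → ℂ) (φ u : ℝ) : ℝ := along v ((√u : ℂ) * unit φ)

lemma abs_along_sub_le (hv1 : ∀ x, ‖v x‖ = 1) (hv : LipschitzWith 1 v) (x y : ℂ) :
    |along v y - along v x| ≤ (1 + ‖x‖) * ‖y - x‖ := by
  have e : along v y - along v x = (conj (v y) * (y - x) + (conj (v y) - conj (v x)) * x).re := by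
    rw [along, along, ← Complex.sub_re]; ring_nf
  rw [e]
  refine (Complex.abs_re_le_norm _).trans ((norm_add_le _ _).trans ?_)
  rw [norm_mul, norm_mul, RCLike.norm_conj, hv1, ← map_sub, RCLike.norm_conj]
  have h1 : ‖v y - v x‖ ≤ ‖y - x‖ := by
    simpa [dist_eq_norm] using hv.dist_le_mul y x
  nlinarith [norm_nonneg x, mul_le_mul_of_nonneg_right h1 (norm_nonneg x)]

lemma measurable_rayAlong (hv : LipschitzWith 1 v) (φ : ℝ) : Measurable (rayAlong v φ) := by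
  unfold rayAlong along
  have := hv.continuous
  fun_prop

variable {ε a : ℝ}

/-- Pointwise bound away from the origin. -/
lemma outer_pointwise (hv1 : ∀ x, ‖v x‖ = 1) (hf : Continuous f)
    (hm : ∀ w x : ℂ, ‖w‖ = 1 → f (w * x) = w ^ m * f x) (hfin : ∫⁻ x, ‖f x‖ₑ ^ 2 ≠ ∞)
    (hε : 0 < ε) (hεa : ε ≤ a) (ha : a ≤ 1 / 16) {x : ℂ} (hx : 1 / 2 < ‖x‖) :
    ‖truncHilbert v ε a f x‖ₑ ≤
      ENNReal.ofReal (256 * (1 + |(m : ℝ)|)) * major (prof f) ε a (‖x‖ ^ 2) (along v x) := by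
  set r := ‖x‖
  set u := r ^ 2
  set b := along v x
  set G := prof f
  have hG : Continuous G := continuous_prof hf
  have hx0 : x ≠ 0 := norm_ne_zero_iff.1 (by linarith)
  have htx : ∀ t ∈ Icc ε a, |t| < r ∧ |-t| < r := fun t ht => by
    rw [abs_neg, abs_of_pos (hε.trans_le ht.1)]; constructor <;> linarith [ht.2]
  set E : ℝ → ℂ := fun t => f (x - (t : ℂ) * v x) - dir x ^ m * G (u + (t ^ 2 - 2 * b * t))
  have hE : ∀ t, |t| < r → ‖E t‖ₑ ≤ ENNReal.ofReal (4 * |(m : ℝ)| * |t|) * ‖G (u + (t ^ 2 - 2 * b * t))‖ₑ := by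
    intro t ht
    set y := x - (t : ℂ) * v x
    have hty : ‖y - x‖ = |t| := by simp [y, hv1]
    have hy : y ≠ 0 := by
      intro h
      rw [h, zero_sub, norm_neg] at hty
      linarith
    have hw : ‖y‖ ^ 2 = u + (t ^ 2 - 2 * b * t) := norm_sub_smul_sq x (v x) (hv1 x) t
    simp only [E]
    rw [show f (x - (t : ℂ) * v x) = f y from rfl, eq_dir_prof hm hy, hw, ← sub_mul, enorm_mul]
    refine mul_le_mul' ?_ le_rfl
    rw [← ofReal_norm]
    refine ENNReal.ofReal_le_ofReal ?_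
    refine (norm_zpow_sub_le (norm_dir hy) (norm_dir hx0) m).trans ?_
    calc |(m : ℝ)| * ‖dir y - dir x‖ ≤ |(m : ℝ)| * (2 * ‖y - x‖ / r) := by
          gcongr; exact norm_dir_sub_le hy hx0
      _ ≤ |(m : ℝ)| * (4 * |t|) := by
          gcongr
          rw [hty, div_le_iff₀ (by linarith)]
          nlinarith [abs_nonneg t]
      _ = _ := by ring
  have hEn : ∀ t, |t| < r →
      ‖E (-t)‖ₑ ≤ ENNReal.ofReal (4 * |(m : ℝ)| * |t|) * ‖G (u + (t ^ 2 + 2 * b * t))‖ₑ := by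
    intro t ht
    have := hE (-t) (by rwa [abs_neg])
    rwa [abs_neg, neg_sq, mul_neg, sub_neg_eq_add] at this
  set Y : ℝ → ℂ := fun t => ((1 / t : ℝ) : ℂ) * (E t - E (-t))
  have hcont : ∀ g : ℝ → ℂ, Continuous g →
      IntervalIntegrable (fun t => ((1 / t : ℝ) : ℂ) * g t) volume ε a := fun g hg =>
    ((Complex.continuous_ofReal.comp_continuousOn (continuousOn_const.div continuousOn_id
      fun t ht => (hε.trans_le ht.1).ne')).mul hg.continuousOn).intervalIntegrable_of_Icc hεa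
  have hsplit : truncHilbert v ε a f x =
      dir x ^ m * para G ε a u b + ∫ t in ε..a, Y t := by
    rw [truncHilbert_eq hf hε hεa, para, ← intervalIntegral.integral_const_mul,
      ← intervalIntegral.integral_add]
    · refine intervalIntegral.integral_congr fun t _ => ?_
      simp only [Y, E, Complex.ofReal_neg, neg_mul, sub_neg_eq_add, neg_sq, mul_neg]
      ring
    · exact (hcont _ ((hG.comp (by fun_prop)).sub (hG.comp (by fun_prop)))).const_mul _
    · refine hcont _ ?_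
      simp only [E]
      fun_prop
  have hY : ‖∫ t in ε..a, Y t‖ₑ ≤
      ENNReal.ofReal (4 * |(m : ℝ)|) * paraAbs (fun w => ‖G w‖ₑ) ε a u b := by
    refine (enorm_interval_le hεa).trans ?_
    have hmG : Measurable fun t : ℝ => ‖G (u + (t ^ 2 - 2 * b * t))‖ₑ :=
      (hG.comp (by fun_prop)).measurable.enorm
    rw [paraAbs, ← lintegral_add_left hmG, ← lintegral_const_mul' _ _ ENNReal.ofReal_ne_top]
    refine setLIntegral_mono' measurableSet_Ioc fun t ht => ?_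
    have ht0 : 0 < t := hε.trans ht.1
    obtain ⟨hr, -⟩ := htx t ⟨ht.1.le, ht.2⟩
    simp only [Y]
    rw [enorm_mul, enorm_ofReal_abs]
    refine (mul_le_mul' le_rfl ((enorm_sub_le).trans (add_le_add (hE t hr) (hEn t hr)))).trans
      (le_of_eq ?_)
    rw [← mul_add, ← mul_assoc, ← ENNReal.ofReal_mul (abs_nonneg _)]
    congr 2
    rw [abs_div, abs_one, abs_of_pos ht0]
    field_simp
  have hp := para_le hG (prof_sq_ne_top hf hm hfin) hε hεa (by linarith) u b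
  set k := ENNReal.ofReal (4 * |(m : ℝ)|)
  have e1 : ‖dir x ^ m‖ₑ = 1 := by
    rw [← ofReal_norm, norm_zpow, norm_dir hx0, one_zpow, ENNReal.ofReal_one]
  calc ‖truncHilbert v ε a f x‖ₑ ≤ ‖para G ε a u b‖ₑ + k * paraAbs (fun w => ‖G w‖ₑ) ε a u b := by
        rw [hsplit]
        refine (enorm_add_le _ _).trans (add_le_add (le_of_eq ?_) hY)
        rw [enorm_mul, e1, one_mul]
    _ ≤ (1 + k) * (‖para G ε a u b‖ₑ + paraAbs (fun w => ‖G w‖ₑ) ε a u b) := by
        rw [add_mul, one_mul, mul_add]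
        exact add_le_add le_self_add le_add_self
    _ ≤ (1 + k) * (64 * major G ε a u b) := by gcongr
    _ ≤ _ := by
        rw [← mul_assoc]
        refine mul_le_mul' ?_ le_rfl
        rw [← ENNReal.ofReal_one, ← ENNReal.ofReal_ofNat,
          ← ENNReal.ofReal_add zero_le_one (by positivity), ← ENNReal.ofReal_mul (by positivity)]
        exact ENNReal.ofReal_le_ofReal (by nlinarith [abs_nonneg (m : ℝ)])

/-- The constant of the ray estimate. -/
def rayC : ℝ≥0∞ :=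
  16 * ENNReal.ofReal (12 * Real.pi * (16 * Real.pi)) + 16 * ENNReal.ofReal (4 * (8 * Real.pi) ^ 2) +
    72 * ENNReal.ofReal (256 * (2 * Real.pi) ^ 2 * (4 * (8 * Real.pi) ^ 2))

lemma rayC_ne_top : rayC ≠ ∞ := by unfold rayC; finiteness

lemma sq_sum_le (q₁ q₂ p₁ p₂ φ₁ φ₂ φ₃ : ℝ≥0∞) :
    ((q₁ + q₂) + (p₁ + p₂) + (φ₁ + φ₂ + φ₃)) ^ 2 ≤
      8 * (q₁ ^ 2 + q₂ ^ 2) + 8 * (p₁ ^ 2 + p₂ ^ 2) + 12 * (φ₁ ^ 2 + φ₂ ^ 2 + φ₃ ^ 2) := by
  calc ((q₁ + q₂) + (p₁ + p₂) + (φ₁ + φ₂ + φ₃)) ^ 2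
      ≤ 2 * (((q₁ + q₂) + (p₁ + p₂)) ^ 2 + (φ₁ + φ₂ + φ₃) ^ 2) := sq_add_le _ _
    _ ≤ 2 * (2 * ((q₁ + q₂) ^ 2 + (p₁ + p₂) ^ 2) + 2 * ((φ₁ + φ₂) ^ 2 + φ₃ ^ 2)) := by
        gcongr <;> exact sq_add_le _ _
    _ ≤ 2 * (2 * (2 * (q₁ ^ 2 + q₂ ^ 2) + 2 * (p₁ ^ 2 + p₂ ^ 2)) +
          2 * (2 * (φ₁ ^ 2 + φ₂ ^ 2) + 3 * φ₃ ^ 2)) := by
        gcongr
        · exact sq_add_le _ _
        · exact sq_add_le _ _
        · exact sq_add_le _ _
        · exact le_mul_of_one_le_left zero_le (by norm_num)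
    _ ≤ _ := by
        ring_nf
        gcongr <;> norm_num

/-- The bound along a single ray. -/
lemma ray_sq_le (hv1 : ∀ x, ‖v x‖ = 1) (hv : LipschitzWith 1 v) {G : ℝ → ℂ} (hG : Continuous G)
    (hε : 0 < ε) (hεa : ε ≤ a) (ha : a ≤ 1 / 16) (φ : ℝ) :
    ∫⁻ u in Ioi (1 / 4 : ℝ), major G ε a u (rayAlong v φ u) ^ 2 ≤ rayC * ∫⁻ w, ‖G w‖ₑ ^ 2 := by
  classical
  have ha0 : 0 < a := hε.trans_le hεa
  set β := rayAlong v φ
  have hβ : Measurable β := measurable_rayAlong hv φ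
  set h : ℝ → ℝ≥0∞ := fun w => ‖G w‖ₑ
  have hhm : Measurable h := hG.measurable.enorm
  set H := ∫⁻ w, h w ^ 2
  set L₁ : ℝ → ℝ := fun u => pfix (2 * |β u| * ε)
  set L₂ : ℝ → ℝ := fun u => pfix (2 * |β u| * cutc a (β u))
  have hc : Measurable fun u => cutc a (β u) := by unfold cutc; fun_prop
  have hL₁ : Measurable L₁ := by fun_prop
  have hL₂ : Measurable L₂ := by fun_prop
  set S := Ioi (1 / 4 : ℝ) ∩ {u | |β u| < 2 * a}
  have hS : MeasurableSet S := measurableSet_Ioi.inter (measurableSet_lt hβ.abs measurable_const)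
  set z : ℝ → ℝ := fun u => u - β u ^ 2
  have hz : Measurable z := by fun_prop
  have hlow : ∀ p ∈ S, ∀ q ∈ S, dist p q ≤ 2 * dist (z p) (z q) := by
    intro p ⟨hp, hp'⟩ q ⟨hq, hq'⟩
    rw [mem_Ioi] at hp hq
    rw [mem_ofPred_eq] at hp' hq'
    set r := √p
    set s := √q
    have hr : r ^ 2 = p := Real.sq_sqrt (by linarith)
    have hs : s ^ 2 = q := Real.sq_sqrt (by linarith)
    have hr2 : 1 / 2 < r := (Real.lt_sqrt (by norm_num)).2 (by linarith)
    have hs2 : 1 / 2 < s := (Real.lt_sqrt (by norm_num)).2 (by linarith)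
    have h1 : |β q - β p| ≤ (1 + r) * |s - r| := by
      refine (abs_along_sub_le hv1 hv ((r : ℂ) * unit φ) ((s : ℂ) * unit φ)).trans (le_of_eq ?_)
      rw [← sub_mul, ← Complex.ofReal_sub]
      simp only [norm_mul, Complex.norm_real, norm_unit, mul_one, Real.norm_eq_abs]
      rw [abs_of_pos (by linarith : 0 < r)]
    have h2 : |β q + β p| ≤ 1 / 4 := (abs_add_le _ _).trans (by linarith)
    have h3 : |β q ^ 2 - β p ^ 2| ≤ |q - p| / 2 := by
      have e : |q - p| = (s + r) * |s - r| := by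
        rw [← hr, ← hs, sq_sub_sq, abs_mul, abs_of_pos (by linarith : 0 < s + r)]
      rw [sq_sub_sq, abs_mul, e]
      calc |β q + β p| * |β q - β p| ≤ 1 / 4 * ((1 + r) * |s - r|) :=
            mul_le_mul h2 h1 (abs_nonneg _) (by norm_num)
        _ ≤ _ := by nlinarith [abs_nonneg (s - r)]
    have h4 : |q - p| ≤ |z q - z p| + |β q ^ 2 - β p ^ 2| := by
      refine le_trans (le_of_eq ?_) (abs_add_le _ _)
      simp only [z]; ring_nf
    rw [Real.dist_eq, Real.dist_eq, abs_sub_comm p, abs_sub_comm (z p)]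
    linarith
  have hinj : InjOn z S := fun p hp q hq hpq => by simpa [hpq] using hlow p hp q hq
  have hUlip : LipschitzOnWith 2 (Function.invFunOn z S) (z '' S) :=
    LipschitzOnWith.of_dist_le_mul fun x hx y hy => by
      obtain ⟨h1, h2⟩ := (⟨Function.invFunOn_mem hx, Function.invFunOn_eq hx⟩ :
        Function.invFunOn z S x ∈ S ∧ z (Function.invFunOn z S x) = x)
      obtain ⟨h3, h4⟩ := (⟨Function.invFunOn_mem hy, Function.invFunOn_eq hy⟩ :
        Function.invFunOn z S y ∈ S ∧ z (Function.invFunOn z S y) = y)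
      simpa [h2, h4] using hlow _ h1 _ h3
  obtain ⟨U, hU, hUeq⟩ := hUlip.extend_real
  have hUz : ∀ u ∈ S, U (z u) = u := fun u hu =>
    (hUeq (mem_image_of_mem z hu)).symm.trans (hinj.leftInvOn_invFunOn hu)
  set KF := ENNReal.ofReal (256 * (2 * Real.pi) ^ 2 * (4 * (8 * Real.pi) ^ 2))
  have hfold : ∀ L : ℝ → ℝ, Measurable L → (∀ u, 0 < L u) →
      ∫⁻ u, S.indicator (fun u => fold (L u) h (z u) ^ 2) u ≤ 2 * (KF * H) := by
    intro L hL hLp
    rw [lintegral_indicator hS]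
    calc ∫⁻ u in S, fold (L u) h (z u) ^ 2
        = ∫⁻ u in S, (fun w => fold (L (U w)) h w ^ 2) (z u) :=
          setLIntegral_congr_fun hS fun u hu => by simp only [hUz u hu]
      _ ≤ 2 * ∫⁻ w, fold (L (U w)) h w ^ 2 := real_comp_le hz hlow
          ((measurable_fold (hL.comp hU.continuous.measurable) measurable_id hhm).pow_const 2)
      _ ≤ _ := mul_le_mul' le_rfl
          (fold_sq_le (hL.comp hU.continuous.measurable) (fun w => hLp _) hhm)
  set F₁ := S.indicator fun u => fold (pfix |β u|) h (z u) ^ 2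
  set F₂ := S.indicator fun u => fold (pfix (max ε (cutc a (β u)))) h (z u) ^ 2
  set F₃ := S.indicator fun u => fold (pfix a) h (z u) ^ 2
  set A := fun u => ‖qop (L₁ u) G u‖ₑ ^ 2 + ‖qop (L₂ u) G u‖ₑ ^ 2
  set B := fun u => pop (L₁ u) h u ^ 2 + pop (L₂ u) h u ^ 2
  have hpt : ∀ u ∈ Ioi (1 / 4 : ℝ),
      major G ε a u (β u) ^ 2 ≤ 8 * A u + 8 * B u + 12 * (F₁ u + F₂ u + F₃ u) := by
    intro u hu
    rw [major]
    by_cases hb : |β u| < 2 * a
    · rw [if_pos hb]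
      have hu' : u ∈ S := ⟨hu, hb⟩
      simp only [F₁, F₂, F₃, indicator_of_mem hu', A, B]
      exact sq_sum_le _ _ _ _ _ _ _
    · rw [if_neg hb]
      refine le_trans ?_ le_self_add
      have := sq_sum_le ‖qop (L₁ u) G u‖ₑ ‖qop (L₂ u) G u‖ₑ (pop (L₁ u) h u) (pop (L₂ u) h u) 0 0 0
      simpa [A, B] using this
  have mq : ∀ L : ℝ → ℝ, Measurable L → Measurable fun u => ‖qop (L u) G u‖ₑ ^ 2 := fun L hL =>
    (measurable_qop hL measurable_id hG.measurable).enorm.pow_const 2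
  have mp : ∀ L : ℝ → ℝ, Measurable L → Measurable fun u => pop (L u) h u ^ 2 := fun L hL =>
    (measurable_pop hL measurable_id hhm).pow_const 2
  have mf : ∀ L : ℝ → ℝ, Measurable L →
      Measurable (S.indicator fun u => fold (L u) h (z u) ^ 2) := fun L hL =>
    ((measurable_fold hL hz hhm).pow_const 2).indicator hS
  have mA : Measurable A := (mq _ hL₁).add (mq _ hL₂)
  have mB : Measurable B := (mp _ hL₁).add (mp _ hL₂)
  have p1 := pfix_pos
  have m8A : Measurable fun u => 8 * A u := mA.const_mul 8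
  have m8B : Measurable fun u => 8 * A u + 8 * B u := m8A.add (mB.const_mul 8)
  have mF12 : Measurable fun u => F₁ u + F₂ u :=
    (mf _ (by fun_prop)).add (mf _ (by fun_prop))
  refine (setLIntegral_mono' measurableSet_Ioi hpt).trans ((setLIntegral_le_lintegral _ _).trans ?_)
  rw [lintegral_add_left m8B, lintegral_add_left m8A, lintegral_const_mul' _ _ (by norm_num),
    lintegral_const_mul' _ _ (by norm_num), lintegral_const_mul' _ _ (by norm_num),
    lintegral_add_left mF12, lintegral_add_left (mf _ (by fun_prop)),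
    lintegral_add_left (mq _ hL₁), lintegral_add_left (mp _ hL₁)]
  refine (add_le_add (add_le_add
    (mul_le_mul' le_rfl (add_le_add (qop_sq_le hL₁ (fun u => p1 _) hG.measurable)
      (qop_sq_le hL₂ (fun u => p1 _) hG.measurable)))
    (mul_le_mul' le_rfl (add_le_add (pop_sq_le hL₁ (fun u => p1 _) hhm)
      (pop_sq_le hL₂ (fun u => p1 _) hhm))))
    (mul_le_mul' le_rfl (add_le_add (add_le_add (hfold _ (by fun_prop) fun u => p1 _)
      (hfold _ (by fun_prop) fun u => p1 _)) (hfold _ measurable_const fun u => p1 _)))).trans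
    (le_of_eq ?_)
  simp only [rayC, KF, H, h]
  ring

/-- The bound away from the origin. -/
lemma outer_sq_le (hv1 : ∀ x, ‖v x‖ = 1) (hv : LipschitzWith 1 v) (hf : Continuous f)
    (hm : ∀ w x : ℂ, ‖w‖ = 1 → f (w * x) = w ^ m * f x) (hfin : ∫⁻ x, ‖f x‖ₑ ^ 2 ≠ ∞)
    (hε : 0 < ε) (hεa : ε ≤ a) (ha : a ≤ 1 / 16) :
    ∫⁻ x in {x : ℂ | 1 / 2 < ‖x‖}, ‖truncHilbert v ε a f x‖ₑ ^ 2 ≤
      ENNReal.ofReal (256 * (1 + |(m : ℝ)|)) ^ 2 * (2 * rayC) * ∫⁻ x, ‖f x‖ₑ ^ 2 := by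
  set Z := {x : ℂ | 1 / 2 < ‖x‖}
  have hZ : MeasurableSet Z := measurableSet_lt measurable_const measurable_norm
  set k := ENNReal.ofReal (256 * (1 + |(m : ℝ)|))
  set G := prof f
  rw [← lintegral_indicator hZ, polar_lintegral
    (((measurable_truncHilbert hv.continuous hf).enorm.pow_const 2).indicator hZ)]
  have hray : ∀ φ : ℝ, ∫⁻ r in Ioi (0 : ℝ), ENNReal.ofReal r *
      Z.indicator (fun x => ‖truncHilbert v ε a f x‖ₑ ^ 2) (Complex.polarCoord.symm (r, φ)) ≤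
      ENNReal.ofReal (1 / 2) * (k ^ 2 * (rayC * ∫⁻ w, ‖G w‖ₑ ^ 2)) := by
    intro φ
    set Φ : ℝ → ℝ≥0∞ := (Ioi (1 / 4 : ℝ)).indicator fun u => major G ε a u (rayAlong v φ u) ^ 2
    calc ∫⁻ r in Ioi (0 : ℝ), ENNReal.ofReal r *
          Z.indicator (fun x => ‖truncHilbert v ε a f x‖ₑ ^ 2) (Complex.polarCoord.symm (r, φ))
        ≤ ∫⁻ r in Ioi (0 : ℝ), ENNReal.ofReal (1 / 2) * k ^ 2 * (ENNReal.ofReal (2 * r) * Φ (r ^ 2)) := by
          refine setLIntegral_mono' measurableSet_Ioi fun r hr => ?_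
          have hr0 : 0 < r := hr
          have hn : ‖Complex.polarCoord.symm (r, φ)‖ = r := by
            rw [Complex.norm_polarCoord_symm, abs_of_pos hr0]
          by_cases hx : Complex.polarCoord.symm (r, φ) ∈ Z
          · rw [indicator_of_mem hx]
            have hr2 : 1 / 2 < r := by rwa [mem_ofPred_eq, hn] at hx
            have hu : r ^ 2 ∈ Ioi (1 / 4 : ℝ) := by rw [mem_Ioi]; nlinarith
            simp only [Φ, indicator_of_mem hu]
            refine (mul_le_mul' le_rfl (pow_le_pow_left'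
              (outer_pointwise hv1 hf hm hfin hε hεa ha hx) 2)).trans (le_of_eq ?_)
            rw [hn, rayAlong, Real.sqrt_sq hr0.le, ← polar_eq,
              show ENNReal.ofReal r = ENNReal.ofReal (1 / 2) * ENNReal.ofReal (2 * r) by
                rw [← ENNReal.ofReal_mul (by norm_num)]; congr 1; ring]
            ring
          · rw [indicator_of_notMem hx, mul_zero]; exact zero_le
      _ = ENNReal.ofReal (1 / 2) * (k ^ 2 * ∫⁻ u in Ioi (0 : ℝ), Φ u) := by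
          rw [lintegral_const_mul' _ _ (by finiteness), lintegral_sq_subst, mul_assoc]
      _ ≤ _ := by
          refine mul_le_mul' le_rfl (mul_le_mul' le_rfl ((setLIntegral_le_lintegral _ _).trans ?_))
          simp only [Φ]
          rw [lintegral_indicator measurableSet_Ioi]
          exact ray_sq_le hv1 hv (continuous_prof hf) hε hεa ha φ
  refine (setLIntegral_mono' measurableSet_Ioo fun φ _ => hray φ).trans (le_of_eq ?_)
  rw [setLIntegral_const, Real.volume_Ioo, show Real.pi - -Real.pi = 2 * Real.pi by ring,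
    ENNReal.ofReal_mul zero_le_two, ENNReal.ofReal_ofNat]
  calc ENNReal.ofReal (1 / 2) * (k ^ 2 * (rayC * ∫⁻ w, ‖G w‖ₑ ^ 2)) * (2 * ENNReal.ofReal Real.pi)
      = (ENNReal.ofReal (1 / 2) * 2) * (k ^ 2 * rayC * (ENNReal.ofReal Real.pi * ∫⁻ w, ‖G w‖ₑ ^ 2)) := by
        ring
    _ = _ := by
        rw [profile_sq hf hm, show ENNReal.ofReal (1 / 2) * 2 = 1 by
          rw [← ENNReal.ofReal_ofNat, ← ENNReal.ofReal_mul (by norm_num)]; norm_num]
        ring

/-- The bound near the origin. -/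
lemma inner_sq_le (hv1 : ∀ x, ‖v x‖ = 1) (hv : LipschitzWith 1 v) (hf : Continuous f)
    (hm : ∀ w x : ℂ, ‖w‖ = 1 → f (w * x) = w ^ m * f x) (hε : 0 < ε) (hεa : ε ≤ a) :
    ∫⁻ x in {x : ℂ | ‖x‖ ≤ 1 / 2}, ‖truncHilbert v ε a f x‖ₑ ^ 2 ≤
      4 * lineC * ∫⁻ x, ‖f x‖ₑ ^ 2 := by
  set B := {x : ℂ | ‖x‖ ≤ 1 / 2}
  have hB : MeasurableSet B := measurableSet_le measurable_norm measurable_const
  have hc := hv.continuous
  set Φ : ℂ → ℂ := fun x => conj (v x) * x
  have hlow : ∀ p ∈ B, ∀ q ∈ B, dist p q ≤ 2 * dist (Φ p) (Φ q) := by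
    intro p _ q hq
    have e : Φ p - Φ q = conj (v p) * (p - q) + conj (v p - v q) * q := by
      simp only [Φ, map_sub]; ring
    have h1 : ‖v p - v q‖ ≤ ‖p - q‖ := by simpa [dist_eq_norm] using hv.dist_le_mul p q
    have h2 : ‖conj (v p - v q) * q‖ ≤ ‖p - q‖ / 2 := by
      rw [norm_mul, RCLike.norm_conj]
      calc ‖v p - v q‖ * ‖q‖ ≤ ‖p - q‖ * (1 / 2) := mul_le_mul h1 hq (norm_nonneg _) (norm_nonneg _)
        _ = _ := by ring
    have h3 := norm_sub_norm_le (conj (v p) * (p - q)) (-(conj (v p - v q) * q))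
    rw [sub_neg_eq_add, ← e, norm_neg] at h3
    have h4 : ‖conj (v p) * (p - q)‖ = ‖p - q‖ := by rw [norm_mul, RCLike.norm_conj, hv1, one_mul]
    rw [dist_eq_norm, dist_eq_norm]
    linarith
  have e : ∀ x, ‖truncHilbert v ε a f x‖ₑ = ‖truncHilbert (fun _ => 1) ε a f (Φ x)‖ₑ := by
    intro x
    have hx : v x * Φ x = x := by
      simp only [Φ]
      rw [← mul_assoc, Complex.mul_conj', hv1]; simp
    have h1 : truncHilbert v ε a f x = v x ^ m * truncHilbert (fun _ => 1) ε a f (Φ x) := by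
      rw [truncHilbert_eq hf hε hεa, truncHilbert_eq hf hε hεa,
        ← intervalIntegral.integral_const_mul]
      refine intervalIntegral.integral_congr fun t _ => ?_
      rw [show x - (t : ℂ) * v x = v x * (Φ x - (t : ℂ) * 1) by rw [mul_sub, hx]; ring,
        show x + (t : ℂ) * v x = v x * (Φ x + (t : ℂ) * 1) by rw [mul_add, hx]; ring,
        hm _ _ (hv1 x), hm _ _ (hv1 x)]
      ring
    rw [h1, enorm_mul, ← ofReal_norm (v x ^ m), norm_zpow, hv1, one_zpow, ENNReal.ofReal_one,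
      one_mul]
  simp_rw [e]
  refine (complex_comp_le (φ := fun y => ‖truncHilbert (fun _ => 1) ε a f y‖ₑ ^ 2) (by fun_prop)
    hlow ((measurable_truncHilbert continuous_const hf).enorm.pow_const 2)).trans ?_
  rw [mul_assoc]
  exact mul_le_mul' le_rfl (const_sq_le hf hε hεa)

end radial

/-- The main estimate. -/
theorem mode_bound : ∃ C : ℝ≥0, ∀ v : ℂ → ℂ, (∀ x, ‖v x‖ = 1) → LipschitzWith 1 v →
    ∀ (m : ℤ) (f : ℂ → ℂ), Continuous f → (∀ w x : ℂ, ‖w‖ = 1 → f (w * x) = w ^ m * f x) →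
    ∀ ε : ℝ, 0 < ε → ε ≤ 1 / 16 →
      ∫⁻ x, ‖truncHilbert v ε (1 / 16) f x‖ₑ ^ 2 ≤
        ENNReal.ofReal ((1 + |(m : ℝ)|) ^ 2) * C * ∫⁻ x, ‖f x‖ₑ ^ 2 := by
  set K := 4 * lineC + ENNReal.ofReal (256 ^ 2) * (2 * rayC) with hK
  have hKtop : K ≠ ∞ := by
    have := lineC_ne_top
    have := rayC_ne_top
    rw [hK]; finiteness
  refine ⟨K.toNNReal + 1, fun v hv1 hv m f hf hm ε hε hεa => ?_⟩
  set M := ENNReal.ofReal ((1 + |(m : ℝ)|) ^ 2)
  set H := ∫⁻ x, ‖f x‖ₑ ^ 2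
  have hM1 : 1 ≤ M := ENNReal.one_le_ofReal.2 (one_le_pow₀ (by linarith [abs_nonneg (m : ℝ)]))
  by_cases hfin : H = ∞
  · rw [hfin, ENNReal.mul_top]
    · exact le_top
    · simp only [ne_eq, mul_eq_zero, ENNReal.coe_eq_zero, not_or]
      exact ⟨(zero_lt_one.trans_le hM1).ne', by simp⟩
  set B := {x : ℂ | ‖x‖ ≤ 1 / 2}
  have hB : MeasurableSet B := measurableSet_le measurable_norm measurable_const
  have hBc : Bᶜ = {x : ℂ | 1 / 2 < ‖x‖} := by ext x; simp [B]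
  rw [← lintegral_add_compl _ hB, hBc]
  refine (add_le_add (inner_sq_le hv1 hv hf hm hε hεa)
    (outer_sq_le hv1 hv hf hm hfin hε hεa le_rfl)).trans ?_
  calc 4 * lineC * H + ENNReal.ofReal (256 * (1 + |(m : ℝ)|)) ^ 2 * (2 * rayC) * H
      ≤ M * (4 * lineC) * H + M * (ENNReal.ofReal (256 ^ 2) * (2 * rayC)) * H := by
        refine add_le_add (mul_le_mul' (le_mul_of_one_le_left zero_le hM1) le_rfl) (le_of_eq ?_)
        rw [← ENNReal.ofReal_pow (by positivity), mul_pow,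
          ENNReal.ofReal_mul (by positivity : (0 : ℝ) ≤ 256 ^ 2)]
        ring
    _ = M * K * H := by rw [hK]; ring
    _ ≤ _ := by
        gcongr
        rw [ENNReal.coe_add, ENNReal.coe_toNNReal hKtop]
        exact le_self_add

/-- The principal value inherits the bound. -/
theorem mode_bound_limit : ∃ C : ℝ≥0, ∀ v : ℂ → ℂ, (∀ x, ‖v x‖ = 1) → LipschitzWith 1 v →
    ∀ (m : ℤ) (f : ℂ → ℂ), Continuous f → (∀ w x : ℂ, ‖w‖ = 1 → f (w * x) = w ^ m * f x) →
    (∀ ε : ℝ, 0 < ε → ε ≤ 1 / 16 → ∫⁻ x, ‖truncHilbert v ε (1 / 16) f x‖ₑ ^ 2 ≤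
        ENNReal.ofReal ((1 + |(m : ℝ)|) ^ 2) * C * ∫⁻ x, ‖f x‖ₑ ^ 2) ∧
    ∀ Hf : ℂ → ℂ, (∀ᵐ x, Tendsto (fun ε => truncHilbert v ε (1 / 16) f x) (𝓝[>] 0) (𝓝 (Hf x))) →
      ∫⁻ x, ‖Hf x‖ₑ ^ 2 ≤ ENNReal.ofReal ((1 + |(m : ℝ)|) ^ 2) * C * ∫⁻ x, ‖f x‖ₑ ^ 2 := by
  obtain ⟨C, hC⟩ := mode_bound
  refine ⟨C, fun v hv1 hv m f hf hm => ⟨hC v hv1 hv m f hf hm, fun Hf hlim => ?_⟩⟩
  set e : ℕ → ℝ := fun n => 1 / 16 / ((n : ℝ) + 1)
  have he : Tendsto e atTop (𝓝[>] 0) := by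
    refine tendsto_nhdsWithin_iff.2 ⟨?_, Eventually.of_forall fun n => ?_⟩
    · simpa [e, div_eq_mul_inv] using
        (tendsto_one_div_add_atTop_nhds_zero_nat (𝕜 := ℝ)).const_mul (1 / 16 : ℝ)
    · simp only [mem_Ioi, e]; positivity
  have he2 : ∀ n, 0 < e n ∧ e n ≤ 1 / 16 := fun n =>
    ⟨by positivity, div_le_self (by norm_num) (by simp)⟩
  have hlim2 : ∀ᵐ x, ‖Hf x‖ₑ ^ 2 =
      liminf (fun n => ‖truncHilbert v (e n) (1 / 16) f x‖ₑ ^ 2) atTop := by
    filter_upwards [hlim] with x hx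
    exact (((ENNReal.continuous_pow 2).tendsto _).comp
      ((continuous_enorm.tendsto _).comp (hx.comp he))).liminf_eq.symm
  rw [lintegral_congr_ae hlim2]
  refine (lintegral_liminf_le fun n =>
    (measurable_truncHilbert hv.continuous hf).enorm.pow_const 2).trans ?_
  exact liminf_le_of_le (by isBoundedDefault) fun c hc =>
    (hc.exists.elim fun n hn => hn.trans (hC v hv1 hv m f hf hm _ (he2 n).1 (he2 n).2))

end Vale.Agent.P112.Mode
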