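import Vale.Agent.P112.Mode.Fold
import Vale.Agent.P112.Mode.Conj

/-!
P112: pointwise domination of the truncated transform along a parabola.
-/

open MeasureTheory Filter Set
open scoped Topology ENNReal Interval

noncomputable section

namespace Vale.Agent.P112.Mode

lemma qk_neg (L s : ℝ) : qk L (-s) = -qk L s := by simp [qk, neg_div]

lemma one_le_pk {L k s : ℝ} (hL : 0 < L) (hs : |s| ≤ k * L) : 1 ≤ (1 + k ^ 2) * L * pk L s := by
  rw [pk, mul_div_assoc', le_div_iff₀ (by positivity), one_mul]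
  nlinarith [pow_le_pow_left₀ (abs_nonneg s) hs 2, sq_abs s]

lemma qk_le_pk {L k s : ℝ} (hL : 0 < L) (hs : |s| ≤ k * L) : |qk L s| ≤ k * pk L s := by
  rw [qk, pk, abs_div, abs_of_pos (show 0 < L ^ 2 + s ^ 2 by positivity), mul_div_assoc']
  gcongr

/-- The kernel of a truncated Hilbert transform is close to a difference of conjugate kernels. -/
lemma kernel_pos {δ D p₁ p₂ s : ℝ} (hδ : 0 < δ) (hδD : δ ≤ D) (hs : 0 < s)
    (h₁ : p₁ ∈ Icc (3 / 4 * δ) (5 / 4 * δ)) (h₂ : p₂ ∈ Icc (3 / 4 * D) (5 / 4 * D)) :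
    |(Ioc p₁ p₂).indicator (fun s => 1 / s) s - qk δ s + qk D s| ≤
      10 * (pk δ s + pk D s) := by
  have hD : 0 < D := hδ.trans_le hδD
  have nδ := pk_nonneg hδ.le s
  have nD := pk_nonneg hD.le s
  have habs : |s| = s := abs_of_pos hs
  have hqδ : 0 ≤ qk δ s ∧ qk δ s ≤ 1 / s := by
    refine ⟨by unfold qk; positivity, ?_⟩
    rw [qk, div_le_div_iff₀ (by positivity) hs]; nlinarith
  by_cases hbig : 5 / 4 * D < s
  · rw [indicator_of_notMem (fun h => absurd h.2 (by linarith [h₂.2]))]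
    have h1 : qk D s ≤ qk δ s := by
      unfold qk; gcongr
    have h2 : qk δ s - qk D s ≤ pk D s := by
      have e : qk δ s - qk D s ≤ D ^ 2 / (s * (D ^ 2 + s ^ 2)) := by
        refine le_trans (sub_le_sub_right hqδ.2 _) (le_of_eq ?_)
        rw [qk]; field_simp; ring
      refine e.trans ?_
      rw [pk, div_le_div_iff₀ (by positivity) (by positivity)]
      nlinarith [mul_nonneg (mul_nonneg hD.le (by linarith : (0 : ℝ) ≤ s - D))
        (show 0 ≤ D ^ 2 + s ^ 2 by positivity)]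
    rw [abs_le]; constructor <;> linarith
  have hqD := qk_le_pk hD (k := 5 / 4) (s := s) (by rw [habs]; linarith)
  rw [abs_le] at hqD
  by_cases hsmall : s ≤ 5 / 4 * δ
  · have hqd := qk_le_pk hδ (k := 5 / 4) (s := s) (by rw [habs]; linarith)
    rw [abs_le] at hqd
    have hi : 0 ≤ (Ioc p₁ p₂).indicator (fun s => 1 / s) s ∧
        (Ioc p₁ p₂).indicator (fun s => 1 / s) s ≤ 4 * pk δ s := by
      by_cases hm : s ∈ Ioc p₁ p₂
      · rw [indicator_of_mem hm]
        refine ⟨by positivity, ?_⟩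
        have hs' : 3 / 4 * δ ≤ s := by linarith [h₁.1, hm.1]
        rw [pk, mul_div_assoc', div_le_div_iff₀ hs (by positivity)]
        nlinarith [mul_le_mul_of_nonneg_left hs' hδ.le,
          mul_le_mul_of_nonneg_left hsmall (by linarith : (0 : ℝ) ≤ s)]
      · rw [indicator_of_notMem hm]; exact ⟨le_rfl, by positivity⟩
    rw [abs_le]; constructor <;> linarith [hi.1, hi.2, hqd.1, hqd.2]
  push Not at hsmall hbig
  by_cases hm : s ∈ Ioc p₁ p₂
  · rw [indicator_of_mem hm]
    have h1 : 1 / s - qk δ s ≤ 2 * pk δ s := by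
      rw [qk, pk, div_sub_div _ _ hs.ne' (by positivity), mul_div_assoc',
        div_le_div_iff₀ (by positivity) (by positivity)]
      nlinarith [mul_nonneg (mul_nonneg hδ.le (by linarith : (0 : ℝ) ≤ 2 * s - δ))
        (show 0 ≤ δ ^ 2 + s ^ 2 by positivity)]
    rw [abs_le]; constructor <;> linarith [hqδ.2]
  · rw [indicator_of_notMem hm]
    have hs' : 3 / 4 * D ≤ s := by
      by_contra hlt
      exact hm ⟨by linarith [h₁.2], by linarith [h₂.1]⟩
    have h1 : 1 / s ≤ 4 * pk D s := by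
      rw [pk, mul_div_assoc', div_le_div_iff₀ hs (by positivity)]
      nlinarith [mul_le_mul_of_nonneg_left hs' hD.le, mul_le_mul_of_nonneg_left hbig hs.le]
    rw [abs_le]; constructor <;> linarith [hqδ.1, hqδ.2]

lemma kernel_le {δ D p₁ p₂ q₁ q₂ : ℝ} (hδ : 0 < δ) (hδD : δ ≤ D)
    (h₁ : p₁ ∈ Icc (3 / 4 * δ) (5 / 4 * δ)) (h₂ : p₂ ∈ Icc (3 / 4 * D) (5 / 4 * D))
    (k₁ : q₁ ∈ Icc (3 / 4 * δ) (5 / 4 * δ)) (k₂ : q₂ ∈ Icc (3 / 4 * D) (5 / 4 * D)) (s : ℝ) :
    |(Ioc p₁ p₂).indicator (fun s => 1 / s) s + (Ico (-q₂) (-q₁)).indicator (fun s => 1 / s) s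
      - qk δ s + qk D s| ≤ 10 * (pk δ s + pk D s) := by
  rcases lt_trichotomy s 0 with hs | rfl | hs
  · have h := kernel_pos (s := -s) hδ hδD (by linarith) k₁ k₂
    rw [qk_neg, qk_neg, pk_neg, pk_neg] at h
    have e1 : (Ioc p₁ p₂).indicator (fun s => 1 / s) s = 0 :=
      indicator_of_notMem (fun hm => absurd hm.1 (by linarith [h₁.1])) _
    have e2 : (Ioc q₁ q₂).indicator (fun s => 1 / s) (-s) =
        -(Ico (-q₂) (-q₁)).indicator (fun s => 1 / s) s := by
      by_cases hm : s ∈ Ico (-q₂) (-q₁)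
      · rw [indicator_of_mem hm, indicator_of_mem (show -s ∈ Ioc q₁ q₂ from ⟨by linarith [hm.2], by linarith [hm.1]⟩)]
        rw [div_neg]
      · rw [indicator_of_notMem hm, neg_zero, indicator_of_notMem]
        exact fun hm' => hm ⟨by linarith [hm'.2], by linarith [hm'.1]⟩
    rw [e1, ← abs_neg]
    rw [e2] at h
    convert h using 2
    ring
  · rw [indicator_of_notMem, indicator_of_notMem]
    · have := pk_nonneg hδ.le 0
      have := pk_nonneg (hδ.le.trans hδD) 0
      simp [qk]; positivity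
    · exact fun hm => absurd hm.2 (by linarith [k₁.1])
    · exact fun hm => absurd hm.1 (by linarith [h₁.1])
  · have h := kernel_pos hδ hδD hs h₁ h₂
    rw [indicator_of_notMem (s := Ico (-q₂) (-q₁))
      (fun hm => absurd hm.2 (by linarith [k₁.1])), add_zero]
    exact h

variable {G : ℝ → ℂ}

lemma integrable_qk_G (hG : Continuous G) (hfin : ∫⁻ w, ‖G w‖ₑ ^ 2 ≠ ∞) {L : ℝ} (hL : 0 < L)
    (u : ℝ) : Integrable fun s => (qk L s : ℂ) * G (u + s) := by
  refine ⟨((Complex.continuous_ofReal.comp (continuous_qk hL)).mul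
    (hG.comp (continuous_const.add continuous_id))).aestronglyMeasurable, ?_⟩
  rw [hasFiniteIntegral_iff_enorm]
  have e : ∫⁻ s, ‖(qk L s : ℂ) * G (u + s)‖ₑ = ∫⁻ w, ‖(qk L (w - u) : ℂ) * G w‖ₑ := by
    rw [← lintegral_add_left_eq_self (fun w => ‖(qk L (w - u) : ℂ) * G w‖ₑ) u]
    simp
  rw [e, lt_top_iff_ne_top]
  intro h
  have h2 := sq_lintegral_qk_mul_le hL u hG.measurable
  rw [h, ENNReal.top_pow two_ne_zero, top_le_iff] at h2
  exact ENNReal.mul_ne_top ENNReal.ofReal_ne_top hfin h2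

lemma qop_eq (L u : ℝ) (G : ℝ → ℂ) : qop L G u = ∫ s, (qk L s : ℂ) * G (u + s) := by
  rw [qop, ← integral_add_left_eq_self (fun w => (qk L (w - u) : ℂ) * G w) u]
  simp

lemma pop_eq (L u : ℝ) (h : ℝ → ℝ≥0∞) :
    pop L h u = ∫⁻ s, ENNReal.ofReal (pk L s) * h (u + s) := by
  rw [pop, ← lintegral_add_left_eq_self (fun w => ENNReal.ofReal (pk L (w - u)) * h w) u]
  simp

lemma integrable_ind_mul {k : ℝ → ℝ} {x y : ℝ} (hk : ContinuousOn k (Icc x y)) {S : Set ℝ}
    (hS : MeasurableSet S) (hsub : S ⊆ Icc x y) (hG : Continuous G) (u : ℝ) :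
    Integrable fun s => ((S.indicator k s : ℝ) : ℂ) * G (u + s) := by
  have h : IntegrableOn (fun s => (k s : ℂ) * G (u + s)) S :=
    ((Complex.continuous_ofReal.comp_continuousOn hk).mul
      (hG.comp (continuous_const.add continuous_id)).continuousOn).integrableOn_Icc.mono_set hsub
  refine ((integrable_indicator_iff hS).2 h).congr (ae_of_all _ fun s => ?_)
  simp only [Set.indicator]; split_ifs <;> simp

/-- A truncated Hilbert transform with two-sided comparable cut-offs. -/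
lemma trunc_le (hG : Continuous G) (hfin : ∫⁻ w, ‖G w‖ₑ ^ 2 ≠ ∞) {δ D p₁ p₂ q₁ q₂ : ℝ}
    (hδ : 0 < δ) (hδD : δ ≤ D) (hp : p₁ ≤ p₂) (hq : q₁ ≤ q₂)
    (h₁ : p₁ ∈ Icc (3 / 4 * δ) (5 / 4 * δ)) (h₂ : p₂ ∈ Icc (3 / 4 * D) (5 / 4 * D))
    (k₁ : q₁ ∈ Icc (3 / 4 * δ) (5 / 4 * δ)) (k₂ : q₂ ∈ Icc (3 / 4 * D) (5 / 4 * D)) (u : ℝ) :
    ‖(∫ s in p₁..p₂, (1 / s : ℝ) * G (u + s)) + ∫ s in (-q₂)..(-q₁), (1 / s : ℝ) * G (u + s)‖ₑ ≤
      ‖qop δ G u‖ₑ + ‖qop D G u‖ₑ +
        10 * (pop δ (fun w => ‖G w‖ₑ) u + pop D (fun w => ‖G w‖ₑ) u) := by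
  have hD := hδ.trans_le hδD
  set P := (Ioc p₁ p₂).indicator fun s : ℝ => 1 / s
  set M := (Ico (-q₂) (-q₁)).indicator fun s : ℝ => 1 / s
  have hc : ∀ {x y : ℝ}, (∀ s ∈ Icc x y, s ≠ 0) → ContinuousOn (fun s : ℝ => 1 / s) (Icc x y) :=
    fun h => continuousOn_const.div continuousOn_id h
  have iP : Integrable fun s => (P s : ℂ) * G (u + s) :=
    integrable_ind_mul (hc fun s hs => (lt_of_lt_of_le (show 0 < p₁ by linarith [h₁.1]) hs.1).ne')
      measurableSet_Ioc Ioc_subset_Icc_self hG u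
  have iM : Integrable fun s => (M s : ℂ) * G (u + s) :=
    integrable_ind_mul (hc fun s hs => (lt_of_le_of_lt hs.2 (show -q₁ < 0 by linarith [k₁.1])).ne)
      measurableSet_Ico Ico_subset_Icc_self hG u
  have iδ := integrable_qk_G hG hfin hδ u
  have iD := integrable_qk_G hG hfin hD u
  have eP : ∫ s in p₁..p₂, (1 / s : ℝ) * G (u + s) = ∫ s, (P s : ℂ) * G (u + s) := by
    rw [intervalIntegral.integral_of_le hp, ← integral_indicator measurableSet_Ioc]
    refine integral_congr_ae (ae_of_all _ fun s => ?_)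
    simp only [P, Set.indicator]; split_ifs <;> simp
  have eM : ∫ s in (-q₂)..(-q₁), (1 / s : ℝ) * G (u + s) = ∫ s, (M s : ℂ) * G (u + s) := by
    rw [intervalIntegral.integral_of_le (by linarith), ← integral_Ico_eq_integral_Ioc,
      ← integral_indicator measurableSet_Ico]
    refine integral_congr_ae (ae_of_all _ fun s => ?_)
    simp only [M, Set.indicator]; split_ifs <;> simp
  have e : (∫ s, (P s : ℂ) * G (u + s)) + ∫ s, (M s : ℂ) * G (u + s) =
      qop δ G u + -qop D G u + ∫ s, ((P s + M s - qk δ s + qk D s : ℝ) : ℂ) * G (u + s) := by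
    have i1 : Integrable fun s => (P s : ℂ) * G (u + s) + (M s : ℂ) * G (u + s) := iP.add iM
    have i2 : Integrable fun s => (P s : ℂ) * G (u + s) + (M s : ℂ) * G (u + s)
        - (qk δ s : ℂ) * G (u + s) := i1.sub iδ
    have e2 : ∀ s, ((P s + M s - qk δ s + qk D s : ℝ) : ℂ) * G (u + s) =
        (P s : ℂ) * G (u + s) + (M s : ℂ) * G (u + s) - (qk δ s : ℂ) * G (u + s)
          + (qk D s : ℂ) * G (u + s) := fun s => by push_cast; ring
    simp_rw [e2]
    rw [integral_add i2 iD, integral_sub i1 iδ, integral_add iP iM, qop_eq, qop_eq]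
    ring
  rw [eP, eM, e]
  refine (enorm_add_le _ _).trans (add_le_add ((enorm_add_le _ _).trans_eq (by rw [enorm_neg]))
    ((enorm_integral_le_lintegral_enorm _).trans ?_))
  rw [pop_eq, pop_eq]
  have hm : Measurable fun s => ENNReal.ofReal (pk δ s) * ‖G (u + s)‖ₑ :=
    (ENNReal.measurable_ofReal.comp (continuous_pk hδ).measurable).mul
      (hG.measurable.comp (measurable_const_add u)).enorm
  rw [← lintegral_add_left hm, ← lintegral_const_mul' _ _ (by norm_num)]
  refine lintegral_mono fun s => ?_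
  rw [enorm_mul, enorm_ofReal_abs, ← add_mul, ← mul_assoc,
    ← ENNReal.ofReal_add (pk_nonneg hδ.le _) (pk_nonneg hD.le _), ← ENNReal.ofReal_ofNat,
    ← ENNReal.ofReal_mul (by norm_num)]
  exact mul_le_mul' (ENNReal.ofReal_le_ofReal (kernel_le hδ hδD h₁ h₂ k₁ k₂ s)) le_rfl

/-- Integral of `h` over a parabolic arc near `u`. -/
lemma arc_le {b c ε : ℝ} (hb : 0 < b) (hc : 0 < c) (hcb : c ≤ b / 2) (hε : 0 ≤ ε) {σ : ℝ}
    (hσ : σ = 1 ∨ σ = -1) {h : ℝ → ℝ≥0∞} (hh : Measurable h) (u : ℝ) :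
    ∫⁻ t in Ioc ε c, h (u + (t ^ 2 + σ * (2 * b * t))) ≤
      ENNReal.ofReal (6 * c) * pop (2 * b * c) h u := by
  set D := 2 * b * c
  have hD : 0 < D := by positivity
  set s : ℝ → ℝ := fun t => t ^ 2 + σ * (2 * b * t)
  have hd : ∀ t ∈ Ioc ε c, HasDerivWithinAt s (2 * t + σ * (2 * b)) (Ioc ε c) t := by
    intro t _
    have := ((hasDerivAt_pow 2 t).add (((hasDerivAt_id t).const_mul (2 * b)).const_mul σ))
    simpa [s, Pi.add_def] using this.hasDerivWithinAt
  have hinj : InjOn s (Ioc ε c) := by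
    intro x hx y hy hxy
    have h1 : (x - y) * (x + y + σ * (2 * b)) = 0 := by simp only [s] at hxy; linear_combination hxy
    have h2 : x + y + σ * (2 * b) ≠ 0 := by
      rcases hσ with rfl | rfl
      · nlinarith [hx.1, hy.1]
      · nlinarith [hx.2, hy.2]
    exact sub_eq_zero.1 ((mul_eq_zero.1 h1).resolve_right h2)
  have hder : ∀ t ∈ Ioc ε c, b ≤ |2 * t + σ * (2 * b)| := by
    intro t ht
    rcases hσ with rfl | rfl
    · exact le_trans (by linarith [ht.1]) (le_abs_self _)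
    · exact le_trans (by linarith [ht.2]) (neg_le_abs _)
  have h1 : ENNReal.ofReal b * ∫⁻ t in Ioc ε c, h (u + s t) ≤ ∫⁻ w in s '' Ioc ε c, h (u + w) := by
    rw [lintegral_image_eq_lintegral_abs_deriv_mul measurableSet_Ioc hd hinj,
      ← lintegral_const_mul' _ _ ENNReal.ofReal_ne_top]
    exact setLIntegral_mono' measurableSet_Ioc fun t ht =>
      mul_le_mul' (ENNReal.ofReal_le_ofReal (hder t ht)) le_rfl
  have hsub : s '' Ioc ε c ⊆ Icc (-(5 / 4 * D)) (5 / 4 * D) := by
    rintro _ ⟨t, ht, rfl⟩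
    have ht0 : 0 ≤ t := hε.trans ht.1.le
    have e1 : t ^ 2 ≤ c * (b / 2) := by nlinarith [ht.2]
    have e2 : 2 * b * t ≤ D := by simp only [D]; gcongr; exact ht.2
    have e3 : 0 ≤ 2 * b * t := by positivity
    rcases hσ with rfl | rfl <;> simp only [mem_Icc, s, D] at * <;> constructor <;> nlinarith
  have h2 : ∫⁻ w in s '' Ioc ε c, h (u + w) ≤ ENNReal.ofReal (3 * D) * pop D h u := by
    refine (lintegral_mono_set hsub).trans ?_
    rw [pop_eq, ← lintegral_const_mul' _ _ ENNReal.ofReal_ne_top]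
    refine (setLIntegral_mono' measurableSet_Icc fun w hw => ?_).trans (setLIntegral_le_lintegral _ _)
    rw [← mul_assoc, ← ENNReal.ofReal_mul (by positivity)]
    refine le_mul_of_one_le_left zero_le ?_
    rw [← ENNReal.ofReal_one]
    refine ENNReal.ofReal_le_ofReal ((one_le_pk hD (k := 5 / 4) (abs_le.2 hw)).trans ?_)
    have := pk_nonneg hD.le w
    gcongr
    norm_num
  refine (ENNReal.mul_le_mul_iff_right (show ENNReal.ofReal b ≠ 0 by simpa using hb)
    ENNReal.ofReal_ne_top).1 ((h1.trans h2).trans (le_of_eq ?_))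
  rw [← mul_assoc (ENNReal.ofReal b), ← ENNReal.ofReal_mul hb.le]
  congr 2
  simp only [D]; ring

lemma enorm_interval_le {f : ℝ → ℂ} {x y : ℝ} (h : x ≤ y) :
    ‖∫ t in x..y, f t‖ₑ ≤ ∫⁻ t in Ioc x y, ‖f t‖ₑ := by
  rw [intervalIntegral.integral_of_le h]
  exact enorm_integral_le_lintegral_enorm _

lemma recip_sub {σ b t : ℝ} (ht : t ≠ 0) (h : t + σ * (2 * b) ≠ 0) :
    1 / t = 1 / (t ^ 2 + σ * (2 * b * t)) * (2 * t + σ * (2 * b)) + -(1 / (t + σ * (2 * b))) := by
  have : t ^ 2 + σ * (2 * b * t) = t * (t + σ * (2 * b)) := by ring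
  rw [this, show 2 * t + σ * (2 * b) = t + (t + σ * (2 * b)) by ring]
  generalize t + σ * (2 * b) = v at h ⊢
  field_simp
  ring

/-- The part of the transform with `|t| ≤ |b| / 2`. -/
lemma near_le (hG : Continuous G) (hfin : ∫⁻ w, ‖G w‖ₑ ^ 2 ≠ ∞) {b c ε : ℝ} (hb : 0 < b)
    (hε : 0 < ε) (hεc : ε ≤ c) (hcb : c ≤ b / 2) (u : ℝ) :
    ‖∫ t in ε..c, (1 / t : ℝ) * (G (u + (t ^ 2 - 2 * b * t)) - G (u + (t ^ 2 + 2 * b * t)))‖ₑ ≤
      ‖qop (2 * b * ε) G u‖ₑ + ‖qop (2 * b * c) G u‖ₑ +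
        16 * (pop (2 * b * ε) (fun w => ‖G w‖ₑ) u + pop (2 * b * c) (fun w => ‖G w‖ₑ) u) := by
  set h : ℝ → ℝ≥0∞ := fun w => ‖G w‖ₑ with hh
  have hhm : Measurable h := hG.measurable.enorm
  have hc : 0 < c := hε.trans_le hεc
  set s : ℝ → ℝ → ℝ := fun σ t => t ^ 2 + σ * (2 * b * t) with hs
  have hden : ∀ σ : ℝ, σ = 1 ∨ σ = -1 → ∀ t ∈ Icc ε c, t + σ * (2 * b) ≠ 0 := by
    intro σ hσ t ht
    rcases hσ with rfl | rfl <;> nlinarith [ht.1, ht.2]
  have hcv : ∀ σ : ℝ, σ = 1 ∨ σ = -1 →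
      (∫ t in ε..c, (1 / t : ℝ) * G (u + s σ t)) =
        (∫ w in s σ ε..s σ c, (1 / w : ℝ) * G (u + w)) +
        ∫ t in ε..c, ((-(1 / (t + σ * (2 * b))) : ℝ) : ℂ) * G (u + s σ t) := by
    intro σ hσ
    have hden' := hden σ hσ
    have hne : ∀ t ∈ Icc ε c, s σ t ≠ 0 := fun t ht => by
      rw [show s σ t = t * (t + σ * (2 * b)) by simp only [hs]; ring]
      exact mul_ne_zero (by linarith [ht.1]) (hden' t ht)
    have hderiv : ∀ t ∈ uIcc ε c, HasDerivAt (s σ) (2 * t + σ * (2 * b)) t := by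
      intro t _
      simpa [s, Pi.add_def] using
        ((hasDerivAt_pow 2 t).add (((hasDerivAt_id t).const_mul (2 * b)).const_mul σ))
    have hcont : ContinuousOn (fun t => ((1 / s σ t : ℝ) : ℂ) * G (u + s σ t)) (Icc ε c) := by
      refine ((Complex.continuous_ofReal.comp_continuousOn (continuousOn_const.div ?_ hne))).mul
        (hG.comp_continuousOn ?_) <;> simp only [hs] <;> fun_prop
    have hg : ContinuousOn (fun w => ((1 / w : ℝ) : ℂ) * G (u + w)) (s σ '' uIcc ε c) := by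
      refine (Complex.continuous_ofReal.comp_continuousOn (continuousOn_const.div continuousOn_id ?_)).mul
        (hG.comp (continuous_const.add continuous_id)).continuousOn
      rintro w ⟨t, ht, rfl⟩
      exact hne t (by rwa [uIcc_of_le hεc] at ht)
    rw [← intervalIntegral.integral_deriv_smul_comp' hderiv (by fun_prop) hg,
      ← intervalIntegral.integral_add]
    · refine intervalIntegral.integral_congr fun t ht => ?_
      rw [uIcc_of_le hεc] at ht
      simp only [Function.comp, Complex.real_smul]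
      rw [recip_sub (show t ≠ 0 by linarith [ht.1]) (hden' t ht)]
      simp only [hs]; push_cast; ring
    · exact (ContinuousOn.smul (f := fun t => 2 * t + σ * (2 * b)) (by fun_prop) hcont
        ).intervalIntegrable_of_Icc hεc
    · refine (ContinuousOn.mul (Complex.continuous_ofReal.comp_continuousOn
        (continuousOn_const.div (by fun_prop) hden').neg) ?_).intervalIntegrable_of_Icc hεc
      exact hG.comp_continuousOn (by simp only [hs]; fun_prop)
  have hrem : ∀ σ : ℝ, σ = 1 ∨ σ = -1 →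
      ‖∫ t in ε..c, ((-(1 / (t + σ * (2 * b))) : ℝ) : ℂ) * G (u + s σ t)‖ₑ ≤
        3 * pop (2 * b * c) h u := by
    intro σ hσ
    refine (enorm_interval_le hεc).trans ?_
    calc ∫⁻ t in Ioc ε c, ‖((-(1 / (t + σ * (2 * b))) : ℝ) : ℂ) * G (u + s σ t)‖ₑ
        ≤ ∫⁻ t in Ioc ε c, ENNReal.ofReal (1 / b) * h (u + s σ t) := by
          refine setLIntegral_mono' measurableSet_Ioc fun t ht => ?_
          rw [enorm_mul, enorm_ofReal_abs]
          refine mul_le_mul' (ENNReal.ofReal_le_ofReal ?_) le_rfl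
          rw [abs_neg, abs_div, abs_one]
          refine one_div_le_one_div_of_le hb ?_
          rcases hσ with rfl | rfl
          · exact le_trans (by linarith [ht.1]) (le_abs_self _)
          · exact le_trans (by linarith [ht.2]) (neg_le_abs _)
      _ ≤ ENNReal.ofReal (1 / b) * (ENNReal.ofReal (6 * c) * pop (2 * b * c) h u) := by
          rw [lintegral_const_mul' _ _ ENNReal.ofReal_ne_top]
          exact mul_le_mul' le_rfl (arc_le hb hc hcb hε.le hσ hhm u)
      _ ≤ _ := by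
          rw [← mul_assoc, ← ENNReal.ofReal_mul (by positivity), ← ENNReal.ofReal_ofNat]
          refine mul_le_mul' (ENNReal.ofReal_le_ofReal ?_) le_rfl
          rw [div_mul_eq_mul_div, div_le_iff₀ hb]; linarith
  have hsplit : (∫ t in ε..c, (1 / t : ℝ) * (G (u + (t ^ 2 - 2 * b * t)) - G (u + (t ^ 2 + 2 * b * t)))) =
      (∫ t in ε..c, (1 / t : ℝ) * G (u + s (-1) t)) - ∫ t in ε..c, (1 / t : ℝ) * G (u + s 1 t) := by
    have hI : ∀ σ, IntervalIntegrable (fun t => ((1 / t : ℝ) : ℂ) * G (u + s σ t)) volume ε c := fun σ =>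
      (ContinuousOn.mul (Complex.continuous_ofReal.comp_continuousOn
        (continuousOn_const.div continuousOn_id fun t ht => (hε.trans_le ht.1).ne'))
        (hG.comp_continuousOn (by simp only [hs]; fun_prop))).intervalIntegrable_of_Icc hεc
    rw [← intervalIntegral.integral_sub (hI _) (hI _)]
    refine intervalIntegral.integral_congr fun t _ => ?_
    simp only [hs]; ring_nf
  rw [hsplit, hcv _ (Or.inr rfl), hcv _ (Or.inl rfl)]
  set R₁ := ∫ t in ε..c, ((-(1 / (t + -1 * (2 * b))) : ℝ) : ℂ) * G (u + s (-1) t)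
  set R₂ := ∫ t in ε..c, ((-(1 / (t + 1 * (2 * b))) : ℝ) : ℂ) * G (u + s 1 t)
  have hT := trunc_le hG hfin (δ := 2 * b * ε) (D := 2 * b * c) (p₁ := s 1 ε) (p₂ := s 1 c)
    (q₁ := -s (-1) ε) (q₂ := -s (-1) c) (by positivity) (by gcongr)
    (by simp only [hs]; nlinarith) (by simp only [hs]; nlinarith)
    (by simp only [hs, mem_Icc]; constructor <;> nlinarith)
    (by simp only [hs, mem_Icc]; constructor <;> nlinarith)
    (by simp only [hs, mem_Icc]; constructor <;> nlinarith)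
    (by simp only [hs, mem_Icc]; constructor <;> nlinarith) u
  rw [neg_neg, neg_neg] at hT
  rw [intervalIntegral.integral_symm (s (-1) c) (s (-1) ε),
    show ∀ A B X Y : ℂ, -A + X - (B + Y) = -(B + A) + X + -Y from fun A B X Y => by ring]
  refine (enorm_add_le _ _).trans ?_
  refine (add_le_add ((enorm_add_le _ _).trans (add_le_add le_rfl (hrem _ (Or.inr rfl))))
    ((enorm_neg _).le.trans (hrem _ (Or.inl rfl)))).trans ?_
  rw [enorm_neg]
  refine (add_le_add (add_le_add hT le_rfl) le_rfl).trans ?_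
  rw [add_assoc, add_assoc, ← add_mul]
  refine add_le_add le_rfl ?_
  rw [show (16 : ℝ≥0∞) = 10 + (3 + 3) by norm_num, add_mul (10 : ℝ≥0∞) (3 + 3)]
  exact add_le_add le_rfl (mul_le_mul' le_rfl le_add_self)

/-- The folded kernel. -/
def farKer (b e a τ : ℝ) : ℝ := {τ | e < |τ + b| ∧ |τ + b| ≤ a}.indicator (fun τ => 1 / (τ + b)) τ

lemma farKer_even_le {b e a : ℝ} (hb : 0 < b) (he : b / 2 ≤ e) (hea : e ≤ a) (τ : ℝ) :
    |farKer b e a τ + farKer b e a (-τ)| ≤ 80 * (pk b τ + pk e τ + pk a τ) := by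
  wlog hτ : 0 ≤ τ generalizing τ
  · have := this (-τ) (by linarith)
    rwa [neg_neg, add_comm (farKer b e a (-τ)), pk_neg, pk_neg, pk_neg] at this
  have he0 : 0 < e := by linarith
  have ha0 : 0 < a := he0.trans_le hea
  have nb := pk_nonneg hb.le τ
  have ne := pk_nonneg he0.le τ
  have na := pk_nonneg ha0.le τ
  have habs : |τ| = τ := abs_of_nonneg hτ
  have hbound : ∀ x, |farKer b e a x| ≤ 1 / e := by
    intro x
    rw [farKer]
    by_cases hm : x ∈ {τ | e < |τ + b| ∧ |τ + b| ≤ a}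
    · rw [indicator_of_mem hm, abs_div, abs_one]
      exact one_div_le_one_div_of_le he0 hm.1.le
    · rw [indicator_of_notMem hm, abs_zero]; positivity
  by_cases hsmall : τ ≤ 4 * b
  · have h1 := one_le_pk hb (k := 4) (s := τ) (by rwa [habs])
    have hk : 1 / e ≤ 2 / b := by rw [div_le_div_iff₀ he0 hb]; linarith
    have h2 : 2 / b ≤ 34 * pk b τ := by
      rw [div_le_iff₀ hb]; nlinarith
    have := abs_add_le (farKer b e a τ) (farKer b e a (-τ))
    have := hbound τ
    have := hbound (-τ)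
    nlinarith [mul_nonneg (show (0:ℝ) ≤ 80 by norm_num) (add_nonneg ne na)]
  push Not at hsmall
  have hp : |τ + b| = τ + b := abs_of_pos (by linarith)
  have hm : |-τ + b| = τ - b := by rw [abs_of_neg (by linarith)]; ring
  simp only [farKer, Set.indicator, mem_ofPred_eq, hp, hm]
  have hneg : (1 : ℝ) / (-τ + b) = -(1 / (τ - b)) := by
    rw [show -τ + b = -(τ - b) by ring, div_neg]
  have i1 : 0 ≤ 1 / (τ + b) := by positivity
  have i2 : 1 / (τ + b) ≤ 1 / (τ - b) := one_div_le_one_div_of_le (by linarith) (by linarith)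
  rw [hneg]
  split_ifs with h1 h2 h2
  · have h : 1 / (τ - b) - 1 / (τ + b) ≤ 4 * pk b τ := by
      rw [div_sub_div _ _ (by linarith) (by linarith), pk, mul_div_assoc',
        div_le_div_iff₀ (mul_pos (by linarith) (by linarith)) (by positivity)]
      nlinarith [mul_pos hb (show (0 : ℝ) < τ ^ 2 - 4 * b ^ 2 by nlinarith)]
    rw [abs_le]; constructor <;> linarith
  · -- only `τ + b` is in range, so `τ` is near the inner edge
    have hlt : τ - b ≤ e := by
      by_contra hc; exact h2 ⟨by linarith, by linarith [h1.2]⟩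
    have h3 := one_le_pk he0 (k := 4) (s := τ) (by rw [habs]; linarith)
    have h4 : 1 / (τ + b) ≤ 17 * pk e τ := by
      refine (one_div_le_one_div_of_le he0 h1.1.le).trans ?_
      rw [div_le_iff₀ he0]; nlinarith
    rw [add_zero, abs_of_nonneg i1]; linarith
  · -- only `τ - b` is in range, so `τ` is near the outer edge
    have hgt : a < τ + b := by
      by_contra hc; exact h1 ⟨by linarith [h2.1], by linarith⟩
    have h3 := one_le_pk ha0 (k := 4) (s := τ) (by rw [habs]; linarith [h2.2])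
    have h5 : a / 2 ≤ τ - b := by linarith
    have h4 : 1 / (τ - b) ≤ 34 * pk a τ := by
      refine (one_div_le_one_div_of_le (by linarith) h5).trans ?_
      rw [div_le_iff₀ (by linarith)]; nlinarith
    rw [zero_add, abs_neg, abs_of_nonneg (i1.trans i2)]; linarith
  · simp only [add_zero, abs_zero]; positivity

/-- The part of the transform beyond `|b| / 2`. -/
lemma far_le (hG : Continuous G) {b e a : ℝ} (hb : 0 < b) (he : b / 2 ≤ e) (hea : e ≤ a) (z : ℝ) :
    ‖∫ t in e..a, (1 / t : ℝ) * (G (z + (t - b) ^ 2) - G (z + (t + b) ^ 2))‖ₑ ≤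
      40 * (fold b (fun w => ‖G w‖ₑ) z + fold e (fun w => ‖G w‖ₑ) z + fold a (fun w => ‖G w‖ₑ) z) := by
  have he0 : 0 < e := by linarith
  set K := farKer b e a
  set ψ : ℝ → ℂ := fun τ => G (z + τ ^ 2)
  have hψ : Continuous ψ := hG.comp (by fun_prop)
  set A : ℝ → ℂ := (Ioc e a).indicator fun t => ((1 / t : ℝ) : ℂ) * ψ (t - b)
  set B : ℝ → ℂ := (Ioc e a).indicator fun t => ((1 / t : ℝ) : ℂ) * ψ (t + b)
  have hcont : ∀ c : ℝ, ContinuousOn (fun t => ((1 / t : ℝ) : ℂ) * ψ (t + c)) (Icc e a) := fun c =>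
    (Complex.continuous_ofReal.comp_continuousOn
      (continuousOn_const.div continuousOn_id fun t ht => (he0.trans_le ht.1).ne')).mul
      (hψ.comp (continuous_id.add continuous_const)).continuousOn
  have iA : Integrable A := by
    refine (integrable_indicator_iff measurableSet_Ioc).2 ?_
    have := (hcont (-b)).integrableOn_Icc (μ := volume)
    simp only [← sub_eq_add_neg] at this
    exact this.mono_set Ioc_subset_Icc_self
  have iB : Integrable B := (integrable_indicator_iff measurableSet_Ioc).2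
    ((hcont b).integrableOn_Icc.mono_set Ioc_subset_Icc_self)
  have hK : ∀ᵐ τ : ℝ, (K τ : ℂ) * ψ τ = A (τ + b) + -B (-(τ + b)) := by
    filter_upwards [(Set.toFinite ({e - b, a - b, -e - b, -a - b} : Set ℝ)).measure_zero
      volume |> fun h => measure_eq_zero_iff_ae_notMem.1 h] with τ hτ
    simp only [mem_insert_iff, mem_singleton_iff, not_or] at hτ
    simp only [K, farKer, A, B, Set.indicator, mem_ofPred_eq, mem_Ioc, add_sub_cancel_right]
    rcases le_or_gt 0 (τ + b) with h | h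
    · rw [abs_of_nonneg h, if_neg (show ¬(e < -(τ + b) ∧ -(τ + b) ≤ a) from fun hc => by linarith [hc.1])]
      split_ifs with h1 <;> simp
    · rw [abs_of_neg h, if_neg (show ¬(e < τ + b ∧ τ + b ≤ a) from fun hc => by linarith [hc.1])]
      split_ifs with h1
      · have : ψ (-(τ + b) + b) = ψ τ := by simp only [ψ]; ring_nf
        rw [this, div_neg]; push_cast; ring
      · simp
  have iA' : Integrable fun τ => A (τ + b) := iA.comp_add_right b
  have iB' : Integrable fun τ => -B (-(τ + b)) := (iB.comp_neg.comp_add_right b).neg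
  have iK : Integrable fun τ => (K τ : ℂ) * ψ τ :=
    (iA'.add iB').congr (hK.mono fun τ hτ => hτ.symm)
  have e1 : (∫ t in e..a, (1 / t : ℝ) * (G (z + (t - b) ^ 2) - G (z + (t + b) ^ 2))) =
      ∫ τ, (K τ : ℂ) * ψ τ := by
    rw [integral_congr_ae hK, integral_add iA' iB', integral_neg,
      integral_add_right_eq_self (fun τ => A τ) b, integral_add_right_eq_self (fun τ => B (-τ)) b,
      integral_neg_eq_self B, integral_indicator measurableSet_Ioc,
      integral_indicator measurableSet_Ioc, ← intervalIntegral.integral_of_le hea,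
      ← intervalIntegral.integral_of_le hea, ← sub_eq_add_neg, ← intervalIntegral.integral_sub]
    · exact intervalIntegral.integral_congr fun t _ => by simp only [ψ]; ring
    · have := (hcont (-b)).intervalIntegrable_of_Icc (μ := volume) hea
      simpa only [← sub_eq_add_neg] using this
    · exact (hcont b).intervalIntegrable_of_Icc hea
  have iKn : Integrable fun τ => (K (-τ) : ℂ) * ψ τ := by
    have := iK.comp_neg
    refine this.congr (ae_of_all _ fun τ => ?_)
    simp [ψ]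
  have e2 : 2 * ∫ τ, (K τ : ℂ) * ψ τ = ∫ τ, ((K τ + K (-τ) : ℝ) : ℂ) * ψ τ := by
    have e3 : ∫ τ, (K (-τ) : ℂ) * ψ τ = ∫ τ, (K τ : ℂ) * ψ τ := by
      rw [← integral_neg_eq_self (fun τ => (K τ : ℂ) * ψ τ)]
      simp [ψ]
    push_cast
    simp_rw [add_mul]
    rw [integral_add iK iKn, e3, two_mul]
  have h2 : 2 * ‖∫ τ, (K τ : ℂ) * ψ τ‖ₑ ≤
      80 * (fold b (fun w => ‖G w‖ₑ) z + fold e (fun w => ‖G w‖ₑ) z + fold a (fun w => ‖G w‖ₑ) z) := by
    calc 2 * ‖∫ τ, (K τ : ℂ) * ψ τ‖ₑ = ‖∫ τ, ((K τ + K (-τ) : ℝ) : ℂ) * ψ τ‖ₑ := by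
          rw [← e2, enorm_mul]
          congr 1
          rw [show (2 : ℂ) = ((2 : ℝ) : ℂ) by norm_num, enorm_ofReal_abs]; simp
      _ ≤ ∫⁻ τ, ‖((K τ + K (-τ) : ℝ) : ℂ) * ψ τ‖ₑ := enorm_integral_le_lintegral_enorm _
      _ ≤ ∫⁻ τ, 80 * (ENNReal.ofReal (pk b τ) * ‖ψ τ‖ₑ + ENNReal.ofReal (pk e τ) * ‖ψ τ‖ₑ
            + ENNReal.ofReal (pk a τ) * ‖ψ τ‖ₑ) := by
          refine lintegral_mono fun τ => ?_
          rw [enorm_mul, enorm_ofReal_abs, ← add_mul, ← add_mul, ← mul_assoc,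
            ← ENNReal.ofReal_add (pk_nonneg hb.le _) (pk_nonneg he0.le _),
            ← ENNReal.ofReal_add (add_nonneg (pk_nonneg hb.le _) (pk_nonneg he0.le _))
              (pk_nonneg (he0.le.trans hea) _), ← ENNReal.ofReal_ofNat,
            ← ENNReal.ofReal_mul (by norm_num)]
          exact mul_le_mul' (ENNReal.ofReal_le_ofReal (farKer_even_le hb he hea τ)) le_rfl
      _ = _ := by
          have hm : ∀ L : ℝ, Measurable fun τ => ENNReal.ofReal (pk L τ) * ‖ψ τ‖ₑ := fun L =>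
            (ENNReal.measurable_ofReal.comp (measurable_pk.comp
              (measurable_const.prodMk measurable_id))).mul hψ.measurable.enorm
          have hm2 : Measurable fun τ => ENNReal.ofReal (pk b τ) * ‖ψ τ‖ₑ + ENNReal.ofReal (pk e τ) * ‖ψ τ‖ₑ :=
            (hm b).add (hm e)
          rw [lintegral_const_mul' _ _ (by norm_num), lintegral_add_left hm2, lintegral_add_left (hm b)]
          rfl
  rw [e1]
  refine (ENNReal.mul_le_mul_iff_right two_ne_zero ENNReal.ofNat_ne_top).1 (h2.trans_eq ?_)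
  rw [← mul_assoc]; norm_num

/-- Integral of `h` over the part beyond `|b| / 2`. -/
lemma farArc_le {b e a : ℝ} (hb : 0 ≤ b) (hb2 : b ≤ 2 * a) (he : 0 ≤ e) (hea : e ≤ a) (ha : 0 < a) {σ : ℝ}
    (hσ : σ = 1 ∨ σ = -1) {h : ℝ → ℝ≥0∞} (z : ℝ) :
    ∫⁻ t in Ioc e a, h (z + (t + σ * b) ^ 2) ≤ ENNReal.ofReal (10 * a) * fold a h z := by
  rw [fold, ← lintegral_const_mul' _ _ ENNReal.ofReal_ne_top]
  refine (setLIntegral_mono' measurableSet_Ioc fun t ht => ?_).trans
    ((setLIntegral_le_lintegral _ _).trans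
      (le_of_eq (lintegral_add_right_eq_self
        (fun τ => ENNReal.ofReal (10 * a) * (ENNReal.ofReal (pk a τ) * h (z + τ ^ 2))) (σ * b))))
  rw [← mul_assoc, ← ENNReal.ofReal_mul (by positivity)]
  refine le_mul_of_one_le_left zero_le ?_
  rw [← ENNReal.ofReal_one]
  refine ENNReal.ofReal_le_ofReal ((one_le_pk ha (k := 3) (s := t + σ * b) ?_).trans_eq (by norm_num))
  rw [abs_le]
  rcases hσ with rfl | rfl <;> constructor <;> nlinarith [ht.1, ht.2]

/-- The transform along the parabola, truncated to `ε < |t| ≤ a`. -/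
def para (G : ℝ → ℂ) (ε a u b : ℝ) : ℂ :=
  ∫ t in ε..a, (1 / t : ℝ) * (G (u + (t ^ 2 - 2 * b * t)) - G (u + (t ^ 2 + 2 * b * t)))

/-- The absolute integral along the parabola. -/
def paraAbs (h : ℝ → ℝ≥0∞) (ε a u b : ℝ) : ℝ≥0∞ :=
  (∫⁻ t in Ioc ε a, h (u + (t ^ 2 - 2 * b * t))) + ∫⁻ t in Ioc ε a, h (u + (t ^ 2 + 2 * b * t))

/-- The inner cut-off. -/
def cutc (a b : ℝ) : ℝ := min (|b| / 2) a

/-- A positive replacement of `x`. -/
def pfix (x : ℝ) : ℝ := if 0 < x then x else 1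

lemma pfix_pos (x : ℝ) : 0 < pfix x := by unfold pfix; split_ifs with h <;> linarith

lemma pfix_of_pos {x : ℝ} (h : 0 < x) : pfix x = x := if_pos h

@[fun_prop]
lemma measurable_pfix : Measurable pfix :=
  Measurable.ite (measurableSet_lt measurable_const measurable_id) measurable_id measurable_const

/-- The dominating expression. -/
def major (G : ℝ → ℂ) (ε a u b : ℝ) : ℝ≥0∞ :=
  (‖qop (pfix (2 * |b| * ε)) G u‖ₑ + ‖qop (pfix (2 * |b| * cutc a b)) G u‖ₑ) +
    (pop (pfix (2 * |b| * ε)) (fun w => ‖G w‖ₑ) u + pop (pfix (2 * |b| * cutc a b)) (fun w => ‖G w‖ₑ) u) +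
    (if |b| < 2 * a then fold (pfix |b|) (fun w => ‖G w‖ₑ) (u - b ^ 2)
      + fold (pfix (max ε (cutc a b))) (fun w => ‖G w‖ₑ) (u - b ^ 2)
      + fold (pfix a) (fun w => ‖G w‖ₑ) (u - b ^ 2) else 0)

lemma para_neg (G : ℝ → ℂ) (ε a u b : ℝ) : para G ε a u (-b) = -para G ε a u b := by
  rw [para, para, ← intervalIntegral.integral_neg]
  exact intervalIntegral.integral_congr fun t _ => by ring_nf

lemma major_neg (G : ℝ → ℂ) (ε a u b : ℝ) : major G ε a u (-b) = major G ε a u b := by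
  simp only [major, cutc, abs_neg, neg_sq]

theorem para_le (hG : Continuous G) (hfin : ∫⁻ w, ‖G w‖ₑ ^ 2 ≠ ∞) {ε a : ℝ} (hε : 0 < ε)
    (hεa : ε ≤ a) (ha1 : a ≤ 1) (u b : ℝ) :
    ‖para G ε a u b‖ₑ + paraAbs (fun w => ‖G w‖ₑ) ε a u b ≤ 64 * major G ε a u b := by
  wlog hb0 : 0 ≤ b generalizing b
  · have h := this (-b) (by linarith)
    rw [major_neg, para_neg, enorm_neg] at h
    refine le_trans (le_of_eq ?_) h
    simp only [paraAbs, mul_neg, neg_mul, sub_neg_eq_add, ← sub_eq_add_neg]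
    rw [add_comm (∫⁻ t in Ioc ε a, ‖G (u + (t ^ 2 - 2 * b * t))‖ₑ)]
  set h : ℝ → ℝ≥0∞ := fun w => ‖G w‖ₑ with hh
  have hhm : Measurable h := hG.measurable.enorm
  have ha : 0 < a := hε.trans_le hεa
  rcases eq_or_lt_of_le hb0 with rfl | hb
  · have h0 : para G ε a u 0 = 0 := by simp [para]
    have h1 := farArc_le (h := h) (b := 0) le_rfl (by linarith) hε.le hεa ha (σ := 1) (Or.inl rfl) u
    simp only [mul_zero, add_zero] at h1
    have h2 : paraAbs h ε a u 0 ≤ 2 * (ENNReal.ofReal (10 * a) * fold a h u) := by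
      simp only [paraAbs, mul_zero, zero_mul, sub_zero, add_zero]
      rw [two_mul]; exact add_le_add h1 h1
    rw [h0, enorm_zero, zero_add]
    refine h2.trans ?_
    rw [major, if_pos (by simpa using mul_pos two_pos ha), pfix_of_pos ha,
      show u - (0 : ℝ) ^ 2 = u by ring, ← mul_assoc]
    refine mul_le_mul' ?_ (le_add_left (le_add_left le_rfl))
    rw [← ENNReal.ofReal_ofNat, ← ENNReal.ofReal_mul (by norm_num),
      ← ENNReal.ofReal_ofNat]
    exact ENNReal.ofReal_le_ofReal (by linarith)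
  set c := cutc a b with hcdef
  have hcb : c ≤ b / 2 := by simp only [hcdef, cutc, abs_of_pos hb]; exact min_le_left _ _
  have hca : c ≤ a := min_le_right _ _
  have hc : 0 < c := lt_min (by simpa [abs_of_pos hb] using half_pos hb) ha
  have hcases : c = b / 2 ∨ c = a := by
    rcases le_total (b / 2) a with h | h
    · left; simp only [hcdef, cutc, abs_of_pos hb, min_eq_left h]
    · right; simp only [hcdef, cutc, abs_of_pos hb, min_eq_right h]
  set e := max ε c with hedef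
  have he : 0 < e := lt_max_of_lt_left hε
  have hea : e ≤ a := max_le hεa hca
  set z := u - b ^ 2
  set Q := ‖qop (2 * b * ε) G u‖ₑ + ‖qop (2 * b * c) G u‖ₑ
  set P := pop (2 * b * ε) h u + pop (2 * b * c) h u
  set F := if b < 2 * a then fold b h z + fold e h z + fold a h z else 0
  have hmaj : major G ε a u b = Q + P + F := by
    simp only [major, abs_of_pos hb, Q, P, F, z, ← hcdef, ← hedef, ← hh,
      pfix_of_pos (show 0 < 2 * b * ε by positivity), pfix_of_pos (show 0 < 2 * b * c by positivity),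
      pfix_of_pos hb, pfix_of_pos he, pfix_of_pos ha]
  have hcontI : ∀ {x y : ℝ}, 0 < x → x ≤ y → IntervalIntegrable (fun t => ((1 / t : ℝ) : ℂ) *
      (G (u + (t ^ 2 - 2 * b * t)) - G (u + (t ^ 2 + 2 * b * t)))) volume x y := fun hx hxy =>
    ((Complex.continuous_ofReal.comp_continuousOn
      (continuousOn_const.div continuousOn_id fun t ht => (hx.trans_le ht.1).ne')).mul
      ((hG.comp (by fun_prop)).sub (hG.comp (by fun_prop))).continuousOn).intervalIntegrable_of_Icc hxy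
  -- far piece
  have hfar : ‖∫ t in e..a, ((1 / t : ℝ) : ℂ) *
      (G (u + (t ^ 2 - 2 * b * t)) - G (u + (t ^ 2 + 2 * b * t)))‖ₑ +
      ((∫⁻ t in Ioc e a, h (u + (t ^ 2 - 2 * b * t))) + ∫⁻ t in Ioc e a, h (u + (t ^ 2 + 2 * b * t)))
      ≤ 40 * F + 20 * F := by
    rcases eq_or_lt_of_le hea with heq | hlt
    · simp [heq]
    have hcb2 : c = b / 2 := hcases.resolve_right fun hc' => by
      have := le_max_right ε c
      linarith
    have hb2 : b < 2 * a := by
      have := le_max_right ε c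
      linarith
    have hF : F = fold b h z + fold e h z + fold a h z := if_pos hb2
    have em : ∀ t, u + (t ^ 2 - 2 * b * t) = z + (t + -1 * b) ^ 2 := fun t => by simp only [z]; ring
    have ep : ∀ t, u + (t ^ 2 + 2 * b * t) = z + (t + 1 * b) ^ 2 := fun t => by simp only [z]; ring
    simp_rw [em, ep]
    refine add_le_add ?_ ?_
    · simp only [neg_one_mul, ← sub_eq_add_neg, one_mul, hF]
      exact far_le hG hb (by rw [← hcb2]; exact le_max_right _ _) hlt.le z
    · have key : ∀ σ : ℝ, σ = 1 ∨ σ = -1 →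
          ∫⁻ t in Ioc e a, h (z + (t + σ * b) ^ 2) ≤ 10 * F := by
        intro σ hσ
        refine (farArc_le hb.le hb2.le he.le hlt.le ha hσ z).trans ?_
        rw [hF, ← ENNReal.ofReal_ofNat]
        exact mul_le_mul' (ENNReal.ofReal_le_ofReal (by linarith)) le_add_self
      refine (add_le_add (key _ (Or.inr rfl)) (key _ (Or.inl rfl))).trans (le_of_eq ?_)
      rw [← add_mul]; norm_num
  rw [hmaj]
  rcases le_total c ε with hcε | hεc
  · have : e = ε := max_eq_left hcε
    rw [this] at hfar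
    refine le_trans hfar ?_
    rw [← add_mul, show (40 : ℝ≥0∞) + 20 = 60 by norm_num]
    exact mul_le_mul' (by norm_num) le_add_self
  have hec : e = c := max_eq_right hεc
  rw [hec] at hfar
  have hsplit : para G ε a u b = (∫ t in ε..c, ((1 / t : ℝ) : ℂ) *
      (G (u + (t ^ 2 - 2 * b * t)) - G (u + (t ^ 2 + 2 * b * t)))) + ∫ t in c..a, ((1 / t : ℝ) : ℂ) *
      (G (u + (t ^ 2 - 2 * b * t)) - G (u + (t ^ 2 + 2 * b * t))) :=
    (intervalIntegral.integral_add_adjacent_intervals (hcontI hε hεc) (hcontI hc hca)).symm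
  have hU : ∀ φ : ℝ → ℝ≥0∞, ∫⁻ t in Ioc ε a, φ t = (∫⁻ t in Ioc ε c, φ t) + ∫⁻ t in Ioc c a, φ t :=
    fun φ => by
      rw [← Ioc_union_Ioc_eq_Ioc hεc hca, lintegral_union measurableSet_Ioc (Ioc_disjoint_Ioc_of_le le_rfl)]
  have hn := near_le hG hfin hb hε hεc hcb u
  have ha1' : ∀ σ : ℝ, σ = 1 ∨ σ = -1 →
      ∫⁻ t in Ioc ε c, h (u + (t ^ 2 + σ * (2 * b * t))) ≤ 6 * P := by
    intro σ hσ
    refine (arc_le hb hc hcb hε.le hσ hhm u).trans ?_
    rw [← ENNReal.ofReal_ofNat]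
    exact mul_le_mul' (ENNReal.ofReal_le_ofReal (by linarith)) le_add_self
  have hm1 := ha1' (-1) (Or.inr rfl)
  have hm2 := ha1' 1 (Or.inl rfl)
  simp only [neg_one_mul, one_mul, ← sub_eq_add_neg] at hm1 hm2
  rw [paraAbs, hU, hU, hsplit]
  calc ‖_ + _‖ₑ + (_ + _ + (_ + _))
      ≤ (Q + 16 * P) + (6 * P + 6 * P) + (40 * F + 20 * F) := by
        refine le_trans (add_le_add (enorm_add_le _ _) le_rfl) ?_
        refine le_trans (le_of_eq ?_) (add_le_add (add_le_add hn (add_le_add hm1 hm2)) hfar)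
        ring
    _ = Q + 28 * P + 60 * F := by ring
    _ ≤ 64 * Q + 64 * P + 64 * F :=
        add_le_add (add_le_add (le_mul_of_one_le_left zero_le (by norm_num))
          (mul_le_mul' (by norm_num) le_rfl)) (mul_le_mul' (by norm_num) le_rfl)
    _ = _ := by ring

end Vale.Agent.P112.Mode
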