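import Mathlib

/-!
P112: Poisson averages with a variable width, bounded on `L²` by self-improvement.
-/

open MeasureTheory Filter Set
open scoped Topology ENNReal

noncomputable section

namespace Vale.Agent.P112.Mode

/-- The Poisson kernel of width `L`. -/
def pk (L s : ℝ) : ℝ := L / (L ^ 2 + s ^ 2)

/-- The conjugate Poisson kernel of width `L`. -/
def qk (L s : ℝ) : ℝ := s / (L ^ 2 + s ^ 2)

lemma pk_nonneg {L : ℝ} (hL : 0 ≤ L) (s : ℝ) : 0 ≤ pk L s :=
  div_nonneg hL (by positivity)

lemma pk_neg (L s : ℝ) : pk L (-s) = pk L s := by simp [pk]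

@[fun_prop]
lemma measurable_pk : Measurable fun p : ℝ × ℝ => pk p.1 p.2 := by unfold pk; fun_prop

lemma continuous_pk {L : ℝ} (hL : 0 < L) : Continuous (pk L) := by
  refine Continuous.div (by fun_prop) (by fun_prop) fun s => ?_
  positivity

lemma pk_le_inv {L : ℝ} (hL : 0 < L) (s : ℝ) : pk L s ≤ 1 / L := by
  rw [pk, div_le_div_iff₀ (by positivity) hL]
  nlinarith [sq_nonneg s]

lemma pk_scale {L k : ℝ} (hL : 0 < L) (hk : 1 ≤ k) (s : ℝ) : pk (k * L) s ≤ k * pk L s := by
  have : 0 < k := by linarith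
  rw [pk, pk, mul_div_assoc', div_le_div_iff₀ (by positivity) (by positivity)]
  nlinarith [mul_nonneg (mul_nonneg this.le hL.le) (mul_nonneg (sq_nonneg L)
    (show 0 ≤ k ^ 2 - 1 by nlinarith))]

lemma qk_sq_le {L : ℝ} (hL : 0 < L) (s : ℝ) : qk L s ^ 2 ≤ pk L s / L := by
  have h : 0 < L ^ 2 + s ^ 2 := by positivity
  rw [qk, pk, div_pow, div_div, div_le_div_iff₀ (by positivity) (by positivity)]
  nlinarith [mul_pos (mul_pos hL h) (mul_pos hL hL)]

lemma pk_eq {L : ℝ} (hL : 0 < L) (s : ℝ) : pk L s = (fun x => L⁻¹ * (1 + x ^ 2)⁻¹) (s / L) := by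
  simp only [pk]
  field_simp

lemma integrable_pk {L : ℝ} (hL : 0 < L) : Integrable (pk L) := by
  have := (integrable_inv_one_add_sq.const_mul L⁻¹).comp_div hL.ne'
  exact this.congr (ae_of_all _ fun s => (pk_eq hL s).symm)

lemma integral_pk {L : ℝ} (hL : 0 < L) : ∫ s, pk L s = Real.pi := by
  simp_rw [pk_eq hL]
  rw [Measure.integral_comp_div (fun x => L⁻¹ * (1 + x ^ 2)⁻¹), integral_const_mul,
    integral_univ_inv_one_add_sq, smul_eq_mul, abs_of_pos hL]
  field_simp

lemma lintegral_pk {L : ℝ} (hL : 0 < L) (u : ℝ) :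
    ∫⁻ w, ENNReal.ofReal (pk L (w - u)) = ENNReal.ofReal Real.pi := by
  rw [lintegral_sub_right_eq_self (fun w => ENNReal.ofReal (pk L w)) u,
    ← ofReal_integral_eq_lintegral_ofReal (integrable_pk hL) (ae_of_all _ (pk_nonneg hL.le)),
    integral_pk hL]

lemma pk_mul_le {a b : ℝ} (ha : 0 < a) (hb : 0 < b) (x c : ℝ) :
    pk a x * pk b (x - c) ≤ 4 * pk a c * pk b (x - c) + 4 * pk b c * pk a x := by
  have key : ∀ {L : ℝ}, 0 < L → ∀ y, |c| / 2 ≤ |y| → pk L y ≤ 4 * pk L c := by
    intro L hL y hy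
    rw [pk, pk, mul_div_assoc', div_le_div_iff₀ (by positivity) (by positivity)]
    have h1 : (|c| / 2) ^ 2 ≤ |y| ^ 2 := pow_le_pow_left₀ (by positivity) hy 2
    rw [div_pow, sq_abs, sq_abs] at h1
    nlinarith [mul_nonneg hL.le (sq_nonneg L)]
  have n1 := pk_nonneg ha.le x
  have n2 := pk_nonneg hb.le (x - c)
  have n3 := pk_nonneg ha.le c
  have n4 := pk_nonneg hb.le c
  rcases le_total (|c| / 2) |x| with h | h
  · nlinarith [mul_le_mul_of_nonneg_right (key ha x h) n2, mul_nonneg n4 n1]
  · have : |c| / 2 ≤ |x - c| := by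
      have := abs_sub_abs_le_abs_sub c x
      rw [abs_sub_comm c x] at this
      linarith
    nlinarith [mul_le_mul_of_nonneg_left (key hb _ this) n1, mul_nonneg n3 n2]

lemma lintegral_pk_mul_le {a b : ℝ} (ha : 0 < a) (hb : 0 < b) (u u' : ℝ) :
    ∫⁻ w, ENNReal.ofReal (pk a (w - u)) * ENNReal.ofReal (pk b (w - u')) ≤
      ENNReal.ofReal (4 * Real.pi) *
        (ENNReal.ofReal (pk a (u' - u)) + ENNReal.ofReal (pk b (u - u'))) := by
  have hp : ∀ {L : ℝ}, 0 < L → ∀ v, Integrable fun w => pk L (w - v) :=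
    fun hL v => (integrable_pk hL).comp_sub_right v
  have n1 := pk_nonneg ha.le (u' - u)
  have n2 := pk_nonneg hb.le (u - u')
  calc ∫⁻ w, ENNReal.ofReal (pk a (w - u)) * ENNReal.ofReal (pk b (w - u'))
      ≤ ∫⁻ w, (ENNReal.ofReal (4 * pk a (u' - u)) * ENNReal.ofReal (pk b (w - u')) +
          ENNReal.ofReal (4 * pk b (u - u')) * ENNReal.ofReal (pk a (w - u))) := by
        refine lintegral_mono fun w => ?_
        rw [← ENNReal.ofReal_mul (pk_nonneg ha.le _), ← ENNReal.ofReal_mul (by positivity),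
          ← ENNReal.ofReal_mul (by positivity), ← ENNReal.ofReal_add
            (mul_nonneg (by positivity) (pk_nonneg hb.le _))
            (mul_nonneg (by positivity) (pk_nonneg ha.le _))]
        refine ENNReal.ofReal_le_ofReal ?_
        have := pk_mul_le ha hb (w - u) (u' - u)
        rw [show (w - u) - (u' - u) = w - u' by ring] at this
        rw [← pk_neg b (u - u'), neg_sub]
        exact this
    _ = _ := by
        have hm : Measurable fun w => ENNReal.ofReal (4 * pk a (u' - u)) * ENNReal.ofReal (pk b (w - u')) :=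
          (ENNReal.measurable_ofReal.comp
            ((continuous_pk hb).measurable.comp (measurable_id.sub_const u'))).const_mul _
        rw [lintegral_add_left hm,
          lintegral_const_mul' _ _ ENNReal.ofReal_ne_top,
          lintegral_const_mul' _ _ ENNReal.ofReal_ne_top, lintegral_pk ha, lintegral_pk hb,
          ← add_mul, ← ENNReal.ofReal_add (by positivity) (by positivity),
          ← ENNReal.ofReal_add n1 n2, ← ENNReal.ofReal_mul (by positivity),
          ← ENNReal.ofReal_mul (by positivity)]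
        congr 1
        ring

lemma sq_lintegral_mul_le {α : Type*} [MeasurableSpace α] (μ : Measure α) {f g : α → ℝ≥0∞}
    (hf : AEMeasurable f μ) (hg : AEMeasurable g μ) :
    (∫⁻ x, f x * g x ∂μ) ^ 2 ≤ (∫⁻ x, f x ^ 2 ∂μ) * ∫⁻ x, g x ^ 2 ∂μ := by
  have h := ENNReal.lintegral_mul_le_Lp_mul_Lq μ Real.HolderConjugate.two_two hf hg
  simp only [Pi.mul_apply, ENNReal.rpow_two] at h
  refine (pow_le_pow_left' h 2).trans (le_of_eq ?_)
  rw [mul_pow]
  congr 1 <;> rw [← ENNReal.rpow_natCast, ← ENNReal.rpow_mul] <;> norm_num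

lemma sq_lintegral_weight_le {α : Type*} [MeasurableSpace α] (μ : Measure α) {k h : α → ℝ≥0∞}
    (hk : Measurable k) (hh : Measurable h) :
    (∫⁻ x, k x * h x ∂μ) ^ 2 ≤ (∫⁻ x, k x ∂μ) * ∫⁻ x, k x * h x ^ 2 ∂μ := by
  have e : ∀ y : ℝ≥0∞, (y ^ ((1 : ℝ) / 2)) ^ 2 = y := fun y => by
    rw [← ENNReal.rpow_natCast, ← ENNReal.rpow_mul]; norm_num
  have e' : ∀ y : ℝ≥0∞, y ^ ((1 : ℝ) / 2) * y ^ ((1 : ℝ) / 2) = y := fun y => by
    rw [← sq, e]
  calc (∫⁻ x, k x * h x ∂μ) ^ 2
      = (∫⁻ x, k x ^ ((1 : ℝ) / 2) * (k x ^ ((1 : ℝ) / 2) * h x) ∂μ) ^ 2 := by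
        simp_rw [← mul_assoc, e']
    _ ≤ _ := sq_lintegral_mul_le μ (hk.pow_const _).aemeasurable
        ((hk.pow_const _).mul hh).aemeasurable
    _ = _ := by simp_rw [mul_pow, e]

/-- The Poisson average of width `L` of `h` at `u`. -/
def pop (L : ℝ) (h : ℝ → ℝ≥0∞) (u : ℝ) : ℝ≥0∞ := ∫⁻ w, ENNReal.ofReal (pk L (w - u)) * h w

@[fun_prop]
lemma measurable_pop {α : Type*} [MeasurableSpace α] {L u : α → ℝ} (hL : Measurable L)
    (hu : Measurable u) {h : ℝ → ℝ≥0∞} (hh : Measurable h) :
    Measurable fun a => pop (L a) h (u a) := by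
  refine Measurable.lintegral_prod_right' (f := fun p : α × ℝ =>
    ENNReal.ofReal (pk (L p.1) (p.2 - u p.1)) * h p.2) ?_
  exact (ENNReal.measurable_ofReal.comp (measurable_pk.comp ((hL.comp measurable_fst).prodMk
    (measurable_snd.sub (hu.comp measurable_fst))))).mul (hh.comp measurable_snd)

section bound

variable {L : ℝ → ℝ}

lemma pop_sq_apriori {δ R : ℝ} (hδ : 0 < δ) (hR : 0 < R) {E : Set ℝ} (hE : MeasurableSet E)
    (hLE : ∀ u ∈ E, δ ≤ L u ∧ L u ≤ R) {h : ℝ → ℝ≥0∞} (hh : Measurable h) :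
    ∫⁻ u in E, pop (L u) h u ^ 2 ≤ ENNReal.ofReal ((R / δ * Real.pi) ^ 2) * ∫⁻ w, h w ^ 2 := by
  set k : ℝ → ℝ≥0∞ := fun s => ENNReal.ofReal (R / δ * pk δ s)
  have hk : Measurable k :=
    ENNReal.measurable_ofReal.comp ((continuous_pk hδ).measurable.const_mul _)
  have hk1 : ∀ u, ∫⁻ w, k (w - u) = ENNReal.ofReal (R / δ * Real.pi) := by
    intro u
    simp only [k, ENNReal.ofReal_mul (div_nonneg hR.le hδ.le)]
    rw [lintegral_const_mul' _ _ ENNReal.ofReal_ne_top, lintegral_pk hδ]
  have hk2 : ∀ w, ∫⁻ u, k (w - u) = ENNReal.ofReal (R / δ * Real.pi) := by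
    intro w
    rw [← hk1 w]
    refine lintegral_congr fun u => ?_
    simp only [k]
    rw [← pk_neg δ (u - w), neg_sub]
  have hpt : ∀ u ∈ E, pop (L u) h u ≤ ∫⁻ w, k (w - u) * h w := by
    intro u hu
    refine lintegral_mono fun w => mul_le_mul' (ENNReal.ofReal_le_ofReal ?_) le_rfl
    obtain ⟨h1, h2⟩ := hLE u hu
    rw [pk, pk, div_mul_div_comm, mul_comm δ, mul_div_mul_right _ _ hδ.ne']
    exact div_le_div₀ hR.le h2 (by positivity) (by gcongr)
  calc ∫⁻ u in E, pop (L u) h u ^ 2 ≤ ∫⁻ u in E, (∫⁻ w, k (w - u) * h w) ^ 2 :=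
        setLIntegral_mono' hE fun u hu => pow_le_pow_left' (hpt u hu) 2
    _ ≤ ∫⁻ u, (∫⁻ w, k (w - u) * h w) ^ 2 := setLIntegral_le_lintegral _ _
    _ ≤ ∫⁻ u, ENNReal.ofReal (R / δ * Real.pi) * ∫⁻ w, k (w - u) * h w ^ 2 :=
        lintegral_mono fun u => (sq_lintegral_weight_le volume
          (hk.comp (measurable_id.sub_const u)) hh).trans_eq (by simp only [Function.comp, id, hk1])
    _ = ENNReal.ofReal (R / δ * Real.pi) * ∫⁻ w, ∫⁻ u, k (w - u) * h w ^ 2 := by
        rw [lintegral_const_mul' _ _ ENNReal.ofReal_ne_top, lintegral_lintegral_swap]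
        exact ((hk.comp (measurable_snd.sub measurable_fst)).mul
          ((hh.comp measurable_snd).pow_const 2)).aemeasurable
    _ = _ := by
        have : ∀ w, ∫⁻ u, k (w - u) * h w ^ 2 = ENNReal.ofReal (R / δ * Real.pi) * h w ^ 2 := by
          intro w
          have hm : Measurable fun u => k (w - u) := hk.comp (measurable_id.const_sub w)
          rw [lintegral_mul_const _ hm, hk2]
        simp_rw [this]
        rw [lintegral_const_mul' _ _ ENNReal.ofReal_ne_top, ← mul_assoc,
          ← ENNReal.ofReal_mul (by positivity), sq (R / δ * Real.pi)]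

lemma pop_sq_step (hLm : Measurable L) (hLpos : ∀ u, 0 < L u) {E : Set ℝ} (hE : MeasurableSet E)
    {A : ℝ} (hA : 0 ≤ A)
    (hb : ∀ h : ℝ → ℝ≥0∞, Measurable h → ∫⁻ u in E, pop (L u) h u ^ 2 ≤ ENNReal.ofReal A * ∫⁻ w, h w ^ 2)
    {h : ℝ → ℝ≥0∞} (hh : Measurable h) :
    ∫⁻ u in E, pop (L u) h u ^ 2 ≤ ENNReal.ofReal (8 * Real.pi * √A) * ∫⁻ w, h w ^ 2 := by
  set H := ∫⁻ w, h w ^ 2 with hH
  by_cases htop : H = ∞
  · rcases eq_or_lt_of_le hA with rfl | hpos
    · exact (hb h hh).trans (by simp)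
    · rw [htop, ENNReal.mul_top]
      · exact le_top
      · simpa using mul_pos (mul_pos (by norm_num : (0 : ℝ) < 8) Real.pi_pos) (Real.sqrt_pos.2 hpos)
  set g : ℝ → ℝ≥0∞ := E.indicator fun u => pop (L u) h u with hg
  have hgm : Measurable g := (measurable_pop hLm measurable_id hh).indicator hE
  set M := ∫⁻ u in E, pop (L u) h u ^ 2 with hM
  have hgM : ∫⁻ u, g u ^ 2 = M := by
    rw [hM, ← lintegral_indicator hE]
    refine lintegral_congr fun u => ?_
    simp only [hg, Set.indicator]; split_ifs <;> simp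
  have hMfin : M ≠ ∞ := ne_top_of_le_ne_top (ENNReal.mul_ne_top ENNReal.ofReal_ne_top htop) (hb h hh)
  set Ts : ℝ → ℝ≥0∞ := fun w => ∫⁻ u, ENNReal.ofReal (pk (L u) (w - u)) * g u with hTs
  have hK : Measurable fun p : ℝ × ℝ => ENNReal.ofReal (pk (L p.2) (p.1 - p.2)) :=
    ENNReal.measurable_ofReal.comp (measurable_pk.comp
      ((hLm.comp measurable_snd).prodMk (measurable_fst.sub measurable_snd)))
  have hTsm : Measurable Ts :=
    Measurable.lintegral_prod_right' (f := fun p : ℝ × ℝ =>
      ENNReal.ofReal (pk (L p.2) (p.1 - p.2)) * g p.2) (hK.mul (hgm.comp measurable_snd))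
  have h1 : M = ∫⁻ w, h w * Ts w := by
    rw [hM, ← lintegral_indicator hE]
    calc ∫⁻ u, E.indicator (fun u => pop (L u) h u ^ 2) u
        = ∫⁻ u, ∫⁻ w, ENNReal.ofReal (pk (L u) (w - u)) * h w * g u := by
          refine lintegral_congr fun u => ?_
          have hm : Measurable fun w => ENNReal.ofReal (pk (L u) (w - u)) * h w :=
            (hK.comp (measurable_id.prodMk measurable_const)).mul hh
          rw [lintegral_mul_const _ hm]
          simp only [hg, Set.indicator]
          split_ifs <;> simp [pop, sq]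
      _ = ∫⁻ w, ∫⁻ u, ENNReal.ofReal (pk (L u) (w - u)) * h w * g u :=
          lintegral_lintegral_swap (((hK.comp measurable_swap).mul (hh.comp measurable_snd)).mul
            (hgm.comp measurable_fst)).aemeasurable
      _ = _ := by
          refine lintegral_congr fun w => ?_
          have hm : Measurable fun u => ENNReal.ofReal (pk (L u) (w - u)) * g u :=
            (hK.comp (measurable_const.prodMk measurable_id)).mul hgm
          rw [hTs]
          simp only []
          rw [← lintegral_const_mul _ hm]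
          exact lintegral_congr fun u => by ring
  have h2 : ∫⁻ w, Ts w ^ 2 ≤ ENNReal.ofReal (8 * Real.pi) * ∫⁻ u, g u * pop (L u) g u := by
    calc ∫⁻ w, Ts w ^ 2
        = ∫⁻ w, ∫⁻ u, ∫⁻ u', ENNReal.ofReal (pk (L u) (w - u)) * g u *
            (ENNReal.ofReal (pk (L u') (w - u')) * g u') := by
          refine lintegral_congr fun w => ?_
          have hm : Measurable fun u => ENNReal.ofReal (pk (L u) (w - u)) * g u :=
            (hK.comp (measurable_const.prodMk measurable_id)).mul hgm
          rw [sq, hTs, ← lintegral_mul_const _ hm]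
          exact lintegral_congr fun u => (lintegral_const_mul _ hm).symm
      _ = ∫⁻ u, ∫⁻ u', ∫⁻ w, ENNReal.ofReal (pk (L u) (w - u)) * g u *
            (ENNReal.ofReal (pk (L u') (w - u')) * g u') := by
          rw [lintegral_lintegral_swap]
          · refine lintegral_congr fun u => lintegral_lintegral_swap ?_
            exact (((hK.comp (measurable_fst.prodMk measurable_const)).mul measurable_const).mul
              (hK.mul (hgm.comp measurable_snd))).aemeasurable
          · refine Measurable.aemeasurable (Measurable.lintegral_prod_right' (f := fun p : (ℝ × ℝ) × ℝ =>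
              ENNReal.ofReal (pk (L p.1.2) (p.1.1 - p.1.2)) * g p.1.2 *
                (ENNReal.ofReal (pk (L p.2) (p.1.1 - p.2)) * g p.2)) ?_)
            exact ((hK.comp measurable_fst).mul (hgm.comp (measurable_snd.comp measurable_fst))).mul
              ((hK.comp ((measurable_fst.comp measurable_fst).prodMk measurable_snd)).mul
                (hgm.comp measurable_snd))
      _ ≤ ∫⁻ u, ∫⁻ u', g u * g u' * (ENNReal.ofReal (4 * Real.pi) *
            (ENNReal.ofReal (pk (L u) (u' - u)) + ENNReal.ofReal (pk (L u') (u - u')))) := by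
          refine lintegral_mono fun u => lintegral_mono fun u' => ?_
          refine le_trans (le_of_eq ?_) (mul_le_mul' le_rfl
            (lintegral_pk_mul_le (hLpos u) (hLpos u') u u'))
          have hm : ∀ (v : ℝ), Measurable fun w => ENNReal.ofReal (pk (L v) (w - v)) :=
            fun v => hK.comp (measurable_id.prodMk measurable_const)
          have hm2 : Measurable fun w =>
              ENNReal.ofReal (pk (L u) (w - u)) * ENNReal.ofReal (pk (L u') (w - u')) :=
            (hm u).mul (hm u')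
          rw [← lintegral_const_mul _ hm2]
          exact lintegral_congr fun w => by ring
      _ = ENNReal.ofReal (4 * Real.pi) *
            (∫⁻ u, ∫⁻ u', g u * (ENNReal.ofReal (pk (L u) (u' - u)) * g u')) +
          ENNReal.ofReal (4 * Real.pi) *
            (∫⁻ u, ∫⁻ u', g u' * (ENNReal.ofReal (pk (L u') (u - u')) * g u)) := by
          have hF : Measurable fun p : ℝ × ℝ =>
              g p.1 * (ENNReal.ofReal (pk (L p.1) (p.2 - p.1)) * g p.2) :=
            (hgm.comp measurable_fst).mul ((hK.comp measurable_swap).mul (hgm.comp measurable_snd))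
          rw [← mul_add, ← lintegral_add_left hF.lintegral_prod_right',
            ← lintegral_const_mul' _ _ ENNReal.ofReal_ne_top]
          refine lintegral_congr fun u => ?_
          have hFu : Measurable fun u' => g u * (ENNReal.ofReal (pk (L u) (u' - u)) * g u') :=
            hF.comp (measurable_const.prodMk measurable_id)
          rw [← lintegral_add_left hFu, ← lintegral_const_mul' _ _ ENNReal.ofReal_ne_top]
          exact lintegral_congr fun u' => by ring
      _ = _ := by
          have hF : Measurable fun p : ℝ × ℝ =>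
              g p.2 * (ENNReal.ofReal (pk (L p.2) (p.1 - p.2)) * g p.1) :=
            (hgm.comp measurable_snd).mul (hK.mul (hgm.comp measurable_fst))
          rw [lintegral_lintegral_swap (f := fun u u' => g u' * (ENNReal.ofReal (pk (L u') (u - u')) * g u))
            hF.aemeasurable, ← add_mul, ← ENNReal.ofReal_add (by positivity) (by positivity)]
          congr 1
          · congr 1; ring
          · refine lintegral_congr fun u => ?_
            have hm : Measurable fun w => ENNReal.ofReal (pk (L u) (w - u)) * g w :=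
              (hK.comp (measurable_id.prodMk measurable_const)).mul hgm
            rw [pop, ← lintegral_const_mul _ hm]
  have h3 : (∫⁻ u, g u * pop (L u) g u) ^ 2 ≤ M * (ENNReal.ofReal A * M) := by
    have hz : ∀ u, g u * pop (L u) g u = g u * E.indicator (fun u => pop (L u) g u) u := by
      intro u; by_cases hu : u ∈ E <;> simp [hg, hu]
    simp_rw [hz]
    refine (sq_lintegral_mul_le volume hgm.aemeasurable
      ((measurable_pop hLm measurable_id hgm).indicator hE).aemeasurable).trans ?_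
    rw [hgM]
    refine mul_le_mul' le_rfl ((le_of_eq ?_).trans ((hb g hgm).trans_eq (by rw [hgM])))
    rw [← lintegral_indicator hE]
    refine lintegral_congr fun u => ?_
    simp only [Set.indicator]; split_ifs <;> simp
  have h4 : M ^ 2 ≤ H * ∫⁻ w, Ts w ^ 2 := by
    rw [h1]; exact sq_lintegral_mul_le volume hh.aemeasurable hTsm.aemeasurable
  set B := ENNReal.ofReal (8 * Real.pi) with hB
  have h5 : M ^ 4 ≤ (H * B) ^ 2 * (M * (ENNReal.ofReal A * M)) := by
    calc M ^ 4 = (M ^ 2) ^ 2 := by ring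
      _ ≤ (H * (B * ∫⁻ u, g u * pop (L u) g u)) ^ 2 := by
          gcongr; exact h4.trans (by gcongr)
      _ = (H * B) ^ 2 * (∫⁻ u, g u * pop (L u) g u) ^ 2 := by ring
      _ ≤ _ := by gcongr
  rcases eq_or_ne M 0 with h0 | h0
  · rw [h0]; exact bot_le
  have h6 : M ^ 2 * M ^ 2 ≤ M ^ 2 * ((H * B) ^ 2 * ENNReal.ofReal A) := by
    calc M ^ 2 * M ^ 2 = M ^ 4 := by ring
      _ ≤ _ := h5.trans (le_of_eq (by ring))
  have h7 := (ENNReal.mul_le_mul_iff_right (pow_ne_zero 2 h0) (ENNReal.pow_ne_top hMfin)).1 h6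
  have h8 : (H * B) ^ 2 * ENNReal.ofReal A = (ENNReal.ofReal (8 * Real.pi * √A) * H) ^ 2 := by
    rw [ENNReal.ofReal_mul (by positivity : (0 : ℝ) ≤ 8 * Real.pi), mul_pow, mul_pow, mul_pow,
      ← ENNReal.ofReal_pow (Real.sqrt_nonneg A), Real.sq_sqrt hA, hB]
    ring
  rw [h8] at h7
  exact (ENNReal.pow_le_pow_left_iff two_ne_zero).1 h7

/-- Poisson averages of measurable width are bounded on `L²`. -/
theorem pop_sq_le (hLm : Measurable L) (hLpos : ∀ u, 0 < L u) {h : ℝ → ℝ≥0∞}
    (hh : Measurable h) :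
    ∫⁻ u, pop (L u) h u ^ 2 ≤ ENNReal.ofReal (4 * (8 * Real.pi) ^ 2) * ∫⁻ w, h w ^ 2 := by
  set c := 8 * Real.pi
  set E : ℕ → Set ℝ := fun n => {u | 1 / ((n : ℝ) + 1) ≤ L u ∧ L u ≤ (n : ℝ) + 1} with hE
  have hEm : ∀ n, MeasurableSet (E n) := fun n =>
    (measurableSet_le measurable_const hLm).inter (measurableSet_le hLm measurable_const)
  have hn : ∀ n, ∫⁻ u in E n, pop (L u) h u ^ 2 ≤
      ENNReal.ofReal (4 * c ^ 2) * ∫⁻ w, h w ^ 2 := by
    intro n
    set A₀ := (((n : ℝ) + 1) / (1 / ((n : ℝ) + 1)) * Real.pi) ^ 2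
    have hiter : ∀ j : ℕ, ∀ h : ℝ → ℝ≥0∞, Measurable h → ∫⁻ u in E n, pop (L u) h u ^ 2 ≤
        ENNReal.ofReal (max (4 * c ^ 2) (A₀ / 2 ^ j)) * ∫⁻ w, h w ^ 2 := by
      intro j
      induction j with
      | zero =>
        intro h hh
        refine (pop_sq_apriori (by positivity) (by positivity) (hEm n) (fun u hu => hu) hh).trans ?_
        gcongr
        simp [A₀]
      | succ j ih =>
        intro h hh
        set A := max (4 * c ^ 2) (A₀ / 2 ^ j)
        refine (pop_sq_step hLm hLpos (hEm n) (by positivity) ih hh).trans ?_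
        gcongr
        have hA : 0 ≤ A := by positivity
        have h1 : 2 * c ≤ √A := by
          rw [Real.le_sqrt (by positivity) hA]
          exact le_trans (by ring_nf; rfl) (le_max_left _ _)
        have h2 : c * √A ≤ A / 2 := by
          nlinarith [Real.sq_sqrt hA, Real.sqrt_nonneg A]
        refine h2.trans ?_
        rw [pow_succ 2 j, ← div_div]
        rcases le_total (A₀ / 2 ^ j) (4 * c ^ 2) with hc | hc
        · refine le_trans ?_ (le_max_left _ _)
          have : A = 4 * c ^ 2 := max_eq_left hc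
          rw [this]; nlinarith [sq_nonneg c]
        · refine le_trans ?_ (le_max_right _ _)
          rw [show A = A₀ / 2 ^ j from max_eq_right hc]
    obtain ⟨j, hj⟩ := pow_unbounded_of_one_lt (A₀ / (4 * c ^ 2)) (one_lt_two : (1 : ℝ) < 2)
    refine (hiter j h hh).trans (le_of_eq ?_)
    congr 2
    refine max_eq_left ?_
    rw [div_lt_iff₀ (by positivity)] at hj
    rw [div_le_iff₀ (by positivity)]
    linarith
  have hu : (⋃ n, E n) = univ := by
    refine eq_univ_of_forall fun u => mem_iUnion.2 ?_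
    obtain ⟨n, hn⟩ := exists_nat_gt (max (L u) (1 / L u))
    refine ⟨n, ?_, ?_⟩
    · rw [div_le_iff₀ (by positivity)]
      have := (lt_of_le_of_lt (le_max_right _ _) hn)
      rw [div_lt_iff₀ (hLpos u)] at this
      nlinarith [hLpos u]
    · linarith [lt_of_le_of_lt (le_max_left _ _) hn]
  have hmono : Monotone E := by
    intro m n hmn u hu
    have h' : (m : ℝ) ≤ n := by exact_mod_cast hmn
    exact ⟨le_trans (by gcongr) hu.1, hu.2.trans (by linarith)⟩
  rw [← setLIntegral_univ, ← hu, setLIntegral_iUnion_of_directed _ hmono.directed_le]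
  exact iSup_le hn

end bound

end Vale.Agent.P112.Mode
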