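import Vale.Agent.P112.Mode.Def
import Vale.Agent.P112.Mode.Point

/-!
P112: the constant field, slice by slice.
-/

open MeasureTheory Filter Set
open scoped Topology ENNReal ComplexConjugate

noncomputable section

namespace Vale.Agent.P112.Mode

lemma sq_add_le (x y : ℝ≥0∞) : (x + y) ^ 2 ≤ 2 * (x ^ 2 + y ^ 2) := by
  rcases eq_or_ne x ∞ with rfl | hx
  · simp
  rcases eq_or_ne y ∞ with rfl | hy
  · simp
  lift x to NNReal using hx
  lift y to NNReal using hy
  norm_cast
  exact add_sq_le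

lemma truncHilbert_eq {v : ℂ → ℂ} {ε a : ℝ} {f : ℂ → ℂ} (hf : Continuous f) (hε : 0 < ε)
    (hεa : ε ≤ a) (x : ℂ) :
    truncHilbert v ε a f x =
      ∫ t in ε..a, ((1 / t : ℝ) : ℂ) * (f (x - (t : ℂ) * v x) - f (x + (t : ℂ) * v x)) := by
  set F : ℝ → ℂ := fun t => ((1 / t : ℝ) : ℂ) * f (x - (t : ℂ) * v x)
  have hF : ∀ {p q : ℝ}, (∀ t ∈ Icc p q, t ≠ 0) → ContinuousOn F (Icc p q) := fun h =>
    (Complex.continuous_ofReal.comp_continuousOn (continuousOn_const.div continuousOn_id h)).mul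
      (hf.comp (by fun_prop)).continuousOn
  have h1 := hF (p := ε) (q := a) fun t ht => (hε.trans_le ht.1).ne'
  have h2 := hF (p := -a) (q := -ε) fun t ht => (ht.2.trans_lt (neg_lt_zero.2 hε)).ne
  have hset : {t : ℝ | ε < |t| ∧ |t| < a} = Ioo ε a ∪ Ioo (-a) (-ε) := by
    ext t
    simp only [mem_ofPred_eq, mem_union, mem_Ioo]
    constructor
    · rintro ⟨p, q⟩
      rw [abs_lt] at q
      rcases lt_abs.1 p with p | p
      · left; exact ⟨p, q.2⟩
      · right; exact ⟨q.1, by linarith⟩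
    · rintro (⟨p, q⟩ | ⟨p, q⟩)
      · rw [abs_of_pos (hε.trans p)]; exact ⟨p, q⟩
      · rw [abs_of_neg (by linarith)]; constructor <;> linarith
  rw [truncHilbert, hset, setIntegral_union
    (Set.disjoint_left.2 fun t ht ht' => by linarith [ht.1, ht'.2, hε]) measurableSet_Ioo
    (h1.integrableOn_Icc.mono_set Ioo_subset_Icc_self)
    (h2.integrableOn_Icc.mono_set Ioo_subset_Icc_self),
    ← integral_Ioc_eq_integral_Ioo, ← integral_Ioc_eq_integral_Ioo,
    ← intervalIntegral.integral_of_le hεa, ← intervalIntegral.integral_of_le (by linarith : -a ≤ -ε),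
    ← intervalIntegral.integral_comp_neg F, ← intervalIntegral.integral_add
      (h1.intervalIntegrable_of_Icc hεa)]
  · refine intervalIntegral.integral_congr fun t _ => ?_
    simp only [F, div_neg, Complex.ofReal_neg, neg_mul, sub_neg_eq_add]
    ring
  · refine ((Complex.continuous_ofReal.comp_continuousOn ((continuousOn_const.div continuousOn_neg ?_))).mul
      (hf.comp (by fun_prop)).continuousOn).intervalIntegrable_of_Icc hεa
    exact fun t ht => neg_ne_zero.2 (hε.trans_le ht.1).ne'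

lemma measurable_truncHilbert {v : ℂ → ℂ} (hv : Continuous v) {ε a : ℝ} {f : ℂ → ℂ}
    (hf : Continuous f) : Measurable fun x => truncHilbert v ε a f x := by
  refine (StronglyMeasurable.integral_prod_right' (ν := volume.restrict _)
    (f := fun p : ℂ × ℝ => ((1 / p.2 : ℝ) : ℂ) * f (p.1 - (p.2 : ℂ) * v p.1)) ?_).measurable
  refine Measurable.stronglyMeasurable ?_
  exact (Complex.measurable_ofReal.comp (measurable_const.div measurable_snd)).mul
    (hf.measurable.comp (by fun_prop))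

/-- The constant of the one-dimensional estimate. -/
def lineC : ℝ≥0∞ :=
  8 * ENNReal.ofReal (12 * Real.pi * (16 * Real.pi)) + 800 * ENNReal.ofReal (4 * (8 * Real.pi) ^ 2)

lemma lineC_ne_top : lineC ≠ ∞ := by unfold lineC; finiteness

/-- The truncated Hilbert transform on the line. -/
lemma line_sq_le {h : ℝ → ℂ} (hh : Continuous h) {ε a : ℝ} (hε : 0 < ε) (hεa : ε ≤ a) :
    ∫⁻ y, ‖∫ t in ε..a, ((1 / t : ℝ) : ℂ) * (h (y - t) - h (y + t))‖ₑ ^ 2 ≤
      lineC * ∫⁻ w, ‖h w‖ₑ ^ 2 := by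
  by_cases hfin : ∫⁻ w, ‖h w‖ₑ ^ 2 = ∞
  · rw [hfin, ENNReal.mul_top]
    · exact le_top
    · unfold lineC; simp
  have ha := hε.trans_le hεa
  set q₁ := fun y => ‖qop ε h y‖ₑ
  set q₂ := fun y => ‖qop a h y‖ₑ
  set p₁ := fun y => pop ε (fun w => ‖h w‖ₑ) y
  set p₂ := fun y => pop a (fun w => ‖h w‖ₑ) y
  have hpt : ∀ y, ‖∫ t in ε..a, ((1 / t : ℝ) : ℂ) * (h (y - t) - h (y + t))‖ₑ ^ 2 ≤
      4 * (q₁ y ^ 2 + q₂ y ^ 2) + 400 * (p₁ y ^ 2 + p₂ y ^ 2) := by
    intro y
    have hm := trunc_le hh hfin hε hεa hεa hεa (p₁ := ε) (p₂ := a) (q₁ := ε) (q₂ := a)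
      ⟨by linarith, by linarith⟩ ⟨by linarith, by linarith⟩ ⟨by linarith, by linarith⟩
      ⟨by linarith, by linarith⟩ y
    have hc : ∀ c : ℝ, IntervalIntegrable (fun t => ((1 / t : ℝ) : ℂ) * h (y + c * t)) volume ε a := fun c =>
      ((Complex.continuous_ofReal.comp_continuousOn (continuousOn_const.div continuousOn_id
        fun t ht => (hε.trans_le ht.1).ne')).mul
        (hh.comp (by fun_prop)).continuousOn).intervalIntegrable_of_Icc hεa
    have e : (∫ t in ε..a, ((1 / t : ℝ) : ℂ) * (h (y - t) - h (y + t))) =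
        -((∫ s in ε..a, (1 / s : ℝ) * h (y + s)) + ∫ s in (-a)..(-ε), (1 / s : ℝ) * h (y + s)) := by
      rw [← intervalIntegral.integral_comp_neg fun s : ℝ => ((1 / s : ℝ) : ℂ) * h (y + s),
        ← intervalIntegral.integral_add, ← intervalIntegral.integral_neg]
      · refine intervalIntegral.integral_congr fun t _ => ?_
        simp only [div_neg, Complex.ofReal_neg, ← sub_eq_add_neg]; ring
      · simpa using hc 1
      · have := (hc (-1)).neg
        simpa [Pi.neg_def, div_neg, neg_mul, ← sub_eq_add_neg] using this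
    rw [e, enorm_neg]
    refine (pow_le_pow_left' hm 2).trans ((sq_add_le _ _).trans ?_)
    rw [mul_pow]
    calc 2 * ((q₁ y + q₂ y) ^ 2 + 10 ^ 2 * (p₁ y + p₂ y) ^ 2)
        ≤ 2 * (2 * (q₁ y ^ 2 + q₂ y ^ 2) + 10 ^ 2 * (2 * (p₁ y ^ 2 + p₂ y ^ 2))) := by
          gcongr <;> exact sq_add_le _ _
      _ = _ := by ring
  refine (lintegral_mono hpt).trans ?_
  have mq : ∀ L : ℝ, Measurable fun y => ‖qop L h y‖ₑ ^ 2 := fun L =>
    ((measurable_qop measurable_const measurable_id hh.measurable).enorm).pow_const 2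
  have mp : ∀ L : ℝ, Measurable fun y => pop L (fun w => ‖h w‖ₑ) y ^ 2 := fun L =>
    (measurable_pop measurable_const measurable_id hh.measurable.enorm).pow_const 2
  have m1 : Measurable fun y => 4 * (q₁ y ^ 2 + q₂ y ^ 2) := ((mq ε).add (mq a)).const_mul 4
  rw [lintegral_add_left m1, lintegral_const_mul' _ _ (by norm_num),
    lintegral_const_mul' _ _ (by norm_num), lintegral_add_left (mq ε), lintegral_add_left (mp ε)]
  refine (add_le_add (mul_le_mul' le_rfl (add_le_add (qop_sq_le measurable_const (fun _ => hε) hh.measurable)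
    (qop_sq_le measurable_const (fun _ => ha) hh.measurable))) (mul_le_mul' le_rfl (add_le_add
    (pop_sq_le measurable_const (fun _ => hε) hh.measurable.enorm)
    (pop_sq_le measurable_const (fun _ => ha) hh.measurable.enorm)))).trans (le_of_eq ?_)
  simp only [lineC]; ring

lemma lintegral_complex {φ : ℂ → ℝ≥0∞} (hφ : Measurable φ) :
    ∫⁻ z, φ z = ∫⁻ y : ℝ, ∫⁻ x : ℝ, φ ⟨x, y⟩ := by
  have e := Complex.volume_preserving_equiv_real_prod.symm
  rw [← e.lintegral_comp hφ, Measure.volume_eq_prod,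
    lintegral_prod_symm' (fun a => φ (Complex.measurableEquivRealProd.symm a))
      (hφ.comp Complex.measurableEquivRealProd.symm.measurable)]
  rfl

/-- The constant field. -/
lemma const_sq_le {f : ℂ → ℂ} (hf : Continuous f) {ε a : ℝ} (hε : 0 < ε) (hεa : ε ≤ a) :
    ∫⁻ y, ‖truncHilbert (fun _ => 1) ε a f y‖ₑ ^ 2 ≤ lineC * ∫⁻ y, ‖f y‖ₑ ^ 2 := by
  rw [lintegral_complex ((measurable_truncHilbert continuous_const hf).enorm.pow_const 2),
    lintegral_complex (hf.measurable.enorm.pow_const 2), ← lintegral_const_mul' _ _ lineC_ne_top]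
  refine lintegral_mono fun y => ?_
  have hs : Continuous fun x : ℝ => f ⟨x, y⟩ := by
    refine hf.comp ?_
    have : (fun x : ℝ => (⟨x, y⟩ : ℂ)) = fun x : ℝ => (x : ℂ) + (y : ℂ) * Complex.I := by
      funext x; exact Complex.ext (by simp) (by simp)
    rw [this]; fun_prop
  refine le_trans (le_of_eq ?_) (line_sq_le hs hε hεa)
  refine lintegral_congr fun x => ?_
  rw [truncHilbert_eq hf hε hεa]
  have e1 : ∀ t : ℝ, (⟨x, y⟩ : ℂ) - (t : ℂ) * 1 = ⟨x - t, y⟩ := fun t => by
    exact Complex.ext (by simp) (by simp)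
  have e2 : ∀ t : ℝ, (⟨x, y⟩ : ℂ) + (t : ℂ) * 1 = ⟨x + t, y⟩ := fun t => by
    exact Complex.ext (by simp) (by simp)
  simp only [e1, e2]

end Vale.Agent.P112.Mode
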